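import Mathlib

/-!
Rvachev's step function: a function `S : ℝ → ℝ` with `S = 0` left of `-1`, `S = 1` right of `1`,
`0 ≤ S ≤ 1` and `S' x = S (2x+1) - S (2x-1)`.
-/

namespace Crest.Agent.BoxFlow

open MeasureTheory intervalIntegral

/-- averaging operator -/
noncomputable def avgT (f : ℝ → ℝ) (x : ℝ) : ℝ := (1 / 2) * ∫ s in (2 * x - 1)..(2 * x + 1), f s

theorem hasDerivAt_avgT {f : ℝ → ℝ} (hf : Continuous f) (x : ℝ) :
    HasDerivAt (avgT f) (f (2 * x + 1) - f (2 * x - 1)) x := by
  have hprim : ∀ y, HasDerivAt (fun y => ∫ s in (0:ℝ)..y, f s) (f y) y := fun y =>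
    intervalIntegral.integral_hasDerivAt_right (hf.intervalIntegrable _ _)
      (hf.stronglyMeasurableAtFilter _ _) hf.continuousAt
  have h1 : HasDerivAt (fun x : ℝ => 2 * x + 1) 2 x := by
    simpa using ((hasDerivAt_id x).const_mul 2).add_const 1
  have h2 : HasDerivAt (fun x : ℝ => 2 * x - 1) 2 x := by
    simpa using ((hasDerivAt_id x).const_mul 2).sub_const 1
  have h3 := (hprim (2 * x + 1)).comp x h1
  have h4 := (hprim (2 * x - 1)).comp x h2
  have h5 := (h3.sub h4).const_mul (1 / 2 : ℝ)
  have h6 : HasDerivAt (fun x => (1 / 2 : ℝ) *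
      ((∫ s in (0:ℝ)..(2 * x + 1), f s) - ∫ s in (0:ℝ)..(2 * x - 1), f s))
      (f (2 * x + 1) - f (2 * x - 1)) x := by
    have e : f (2 * x + 1) - f (2 * x - 1) =
      (1 / 2 : ℝ) * (f (2 * x + 1) * 2 - f (2 * x - 1) * 2) := by ring
    rw [e]
    exact h5
  refine h6.congr_of_eventuallyEq (Filter.Eventually.of_forall fun y => ?_)
  unfold avgT
  simp only
  rw [intervalIntegral.integral_interval_sub_left (hf.intervalIntegrable _ _)
    (hf.intervalIntegrable _ _)]

theorem continuous_avgT {f : ℝ → ℝ} (hf : Continuous f) : Continuous (avgT f) :=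
  continuous_iff_continuousAt.2 fun x => (hasDerivAt_avgT hf x).continuousAt

/-- the class of step profiles -/
structure Prof (f : ℝ → ℝ) : Prop where
  cont : Continuous f
  left : ∀ x, x ≤ -1 → f x = 0
  right : ∀ x, 1 ≤ x → f x = 1
  symm : ∀ x, f (-x) = 1 - f x
  nonneg : ∀ x, 0 ≤ f x
  le_one : ∀ x, f x ≤ 1

theorem Prof.avgT {f : ℝ → ℝ} (hf : Prof f) : Prof (avgT f) := by
  refine ⟨continuous_avgT hf.cont, ?_, ?_, ?_, ?_, ?_⟩
  · intro x hx
    have : ∫ s in (2 * x - 1)..(2 * x + 1), f s = ∫ s in (2 * x - 1)..(2 * x + 1), (0:ℝ) := by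
      apply intervalIntegral.integral_congr
      intro s hs
      rw [Set.uIcc_of_le (by linarith)] at hs
      exact hf.left s (by linarith [hs.2])
    simp [BoxFlow.avgT, this]
  · intro x hx
    have : ∫ s in (2 * x - 1)..(2 * x + 1), f s = ∫ s in (2 * x - 1)..(2 * x + 1), (1:ℝ) := by
      apply intervalIntegral.integral_congr
      intro s hs
      rw [Set.uIcc_of_le (by linarith)] at hs
      exact hf.right s (by linarith [hs.1])
    simp only [BoxFlow.avgT, this]
    rw [intervalIntegral.integral_const]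
    simp only [smul_eq_mul]
    ring
  · intro x
    unfold BoxFlow.avgT
    have h1 : ∫ s in (2 * -x - 1)..(2 * -x + 1), f s =
        ∫ s in (2 * x - 1)..(2 * x + 1), f (-s) := by
      rw [intervalIntegral.integral_comp_neg (fun s => f s)]
      congr 1 <;> ring
    rw [h1]
    have h2 : ∫ s in (2 * x - 1)..(2 * x + 1), f (-s) =
        ∫ s in (2 * x - 1)..(2 * x + 1), ((1:ℝ) - f s) := by
      apply intervalIntegral.integral_congr
      intro s _
      exact hf.symm s
    rw [h2, intervalIntegral.integral_sub (by simp) (hf.cont.intervalIntegrable _ _),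
      intervalIntegral.integral_const]
    simp only [smul_eq_mul]
    ring
  · intro x
    unfold BoxFlow.avgT
    have := intervalIntegral.integral_nonneg (f := f) (a := 2 * x - 1) (b := 2 * x + 1) (μ := volume)
      (by linarith) (fun u _ => hf.nonneg u)
    positivity
  · intro x
    unfold BoxFlow.avgT
    have h1 : ∫ s in (2 * x - 1)..(2 * x + 1), f s ≤ ∫ s in (2 * x - 1)..(2 * x + 1), (1:ℝ) :=
      intervalIntegral.integral_mono_on (by linarith) (hf.cont.intervalIntegrable _ _)
        (by simp) (fun u _ => hf.le_one u)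
    rw [intervalIntegral.integral_const] at h1
    simp only [smul_eq_mul] at h1
    linarith

theorem avg_contr {d : ℝ → ℝ} (hc : Continuous d) {ε : ℝ} (hb : ∀ x, |d x| ≤ ε)
    (hl : ∀ x, 1 ≤ x → d x = 0) (hodd : ∀ x, d (-x) = - d x) (x : ℝ) :
    |avgT d x| ≤ ε / 2 := by
  set G : ℝ → ℝ := fun y => ∫ s in (0:ℝ)..y, d s with hG
  have hint : ∀ a b, IntervalIntegrable d volume a b := fun a b => hc.intervalIntegrable a b
  have heven : ∀ y, G (-y) = G y := by
    intro y
    simp only [hG]
    have h1 : ∫ s in (0:ℝ)..(-y), d s = - ∫ s in (0:ℝ)..y, d (-s) := by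
      rw [intervalIntegral.integral_comp_neg (fun s => d s)]
      rw [neg_zero, intervalIntegral.integral_symm]
    rw [h1]
    have h2 : ∫ s in (0:ℝ)..y, d (-s) = ∫ s in (0:ℝ)..y, - d s := by
      apply intervalIntegral.integral_congr
      intro s _
      exact hodd s
    rw [h2, intervalIntegral.integral_neg, neg_neg]
  have hG1 : ∀ y, 1 ≤ y → G y = G 1 := by
    intro y hy
    simp only [hG]
    rw [← intervalIntegral.integral_add_adjacent_intervals (hint 0 1) (hint 1 y)]
    have : ∫ s in (1:ℝ)..y, d s = ∫ s in (1:ℝ)..y, (0:ℝ) := by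
      apply intervalIntegral.integral_congr
      intro s hs
      rw [Set.uIcc_of_le hy] at hs
      exact hl s hs.1
    rw [this]; simp
  have hlip : ∀ a b, |G a - G b| ≤ ε * |a - b| := by
    intro a b
    simp only [hG]
    rw [intervalIntegral.integral_interval_sub_left (hint _ _) (hint _ _)]
    have := intervalIntegral.norm_integral_le_of_norm_le_const (a := b) (b := a) (C := ε) (f := d)
      (fun s _ => hb s)
    simpa using this
  have hmin : ∀ y, G y = G (min |y| 1) := by
    intro y
    have h1 : G y = G |y| := by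
      rcases abs_cases y with ⟨h, _⟩ | ⟨h, _⟩
      · rw [h]
      · rw [h, heven]
    rw [h1]
    rcases le_total |y| 1 with h | h
    · rw [min_eq_left h]
    · rw [min_eq_right h, hG1 _ h]
  have hε : 0 ≤ ε := le_trans (abs_nonneg _) (hb 0)
  have hmem : ∀ y : ℝ, 0 ≤ min |y| 1 ∧ min |y| 1 ≤ 1 := fun y =>
    ⟨le_min (abs_nonneg _) zero_le_one, min_le_right _ _⟩
  have hfin : |G (2 * x + 1) - G (2 * x - 1)| ≤ ε := by
    rw [hmin (2 * x + 1), hmin (2 * x - 1)]
    refine (hlip _ _).trans ?_
    have h1 := hmem (2 * x + 1)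
    have h2 := hmem (2 * x - 1)
    have h3 : |min |2 * x + 1| 1 - min |2 * x - 1| 1| ≤ 1 := by
      rw [abs_le]; constructor <;> linarith [h1.1, h1.2, h2.1, h2.2]
    nlinarith
  unfold avgT
  have : ∫ s in (2 * x - 1)..(2 * x + 1), d s = G (2 * x + 1) - G (2 * x - 1) := by
    simp only [hG]
    rw [intervalIntegral.integral_interval_sub_left (hint _ _) (hint _ _)]
  rw [this, abs_mul]
  rw [show |(1 / 2 : ℝ)| = 1 / 2 by norm_num]
  linarith

theorem avgT_sub {f g : ℝ → ℝ} (hf : Continuous f) (hg : Continuous g) (x : ℝ) :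
    avgT f x - avgT g x = avgT (fun s => f s - g s) x := by
  unfold avgT
  rw [intervalIntegral.integral_sub (hf.intervalIntegrable _ _) (hg.intervalIntegrable _ _)]
  ring

/-- starting profile -/
noncomputable def prof0 (x : ℝ) : ℝ := max 0 (min 1 ((x + 1) / 2))

theorem prof_prof0 : Prof prof0 := by
  refine ⟨?_, ?_, ?_, ?_, ?_, ?_⟩
  · unfold prof0; fun_prop
  · intro x hx
    unfold prof0
    apply max_eq_left
    exact (min_le_right _ _).trans (by linarith)
  · intro x hx
    unfold prof0
    rw [min_eq_left (by linarith)]; simp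
  · intro x
    unfold prof0
    rcases le_total x (-1) with h | h
    · rw [min_eq_left (a := (1:ℝ)) (by linarith), min_eq_right (a := (1:ℝ)) (by linarith),
        max_eq_left (a := (0:ℝ)) (b := (x + 1) / 2) (by linarith)]
      simp
    · rcases le_total x 1 with h' | h'
      · rw [min_eq_right (by linarith), min_eq_right (by linarith), max_eq_right (by linarith),
          max_eq_right (by linarith)]
        ring
      · rw [min_eq_right (a := (1:ℝ)) (b := (-x + 1) / 2) (by linarith),
          min_eq_left (a := (1:ℝ)) (by linarith),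
          max_eq_left (a := (0:ℝ)) (b := (-x + 1) / 2) (by linarith)]
        simp
  · intro x; exact le_max_left _ _
  · intro x; unfold prof0; exact max_le zero_le_one (min_le_left _ _)

noncomputable def profSeq : ℕ → ℝ → ℝ
  | 0 => prof0
  | n + 1 => avgT (profSeq n)

theorem prof_profSeq (n : ℕ) : Prof (profSeq n) := by
  induction n with
  | zero => exact prof_prof0
  | succ n ih => exact ih.avgT

theorem profSeq_dist (n : ℕ) (x : ℝ) : |profSeq (n + 1) x - profSeq n x| ≤ (1 / 2) ^ n := by
  induction n generalizing x with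
  | zero =>
    have h0 := prof_profSeq 0
    have h1 := prof_profSeq 1
    rw [abs_le]
    constructor <;> simp <;> linarith [h0.nonneg x, h0.le_one x, h1.nonneg x, h1.le_one x]
  | succ n ih =>
    have h0 := prof_profSeq n
    have h1 := prof_profSeq (n + 1)
    show |avgT (profSeq (n + 1)) x - avgT (profSeq n) x| ≤ _
    rw [avgT_sub h1.cont h0.cont]
    refine (avg_contr (ε := (1 / 2) ^ n) (h1.cont.sub h0.cont) ih ?_ ?_ x).trans (le_of_eq ?_)
    · intro x hx
      show profSeq (n + 1) x - profSeq n x = 0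
      rw [h1.right x hx, h0.right x hx, sub_self]
    · intro x
      show profSeq (n + 1) (-x) - profSeq n (-x) = -(profSeq (n + 1) x - profSeq n x)
      rw [h1.symm, h0.symm]; ring
    · rw [pow_succ]; ring

theorem exists_step : ∃ S : ℝ → ℝ, (∀ x, x ≤ -1 → S x = 0) ∧ (∀ x, 1 ≤ x → S x = 1) ∧
    (∀ x, 0 ≤ S x) ∧ (∀ x, S x ≤ 1) ∧
    ∀ x, HasDerivAt S (S (2 * x + 1) - S (2 * x - 1)) x := by
  have hdist : ∀ x n, dist (profSeq n x) (profSeq (n + 1) x) ≤ 2 / 2 / 2 ^ n := by
    intro x n
    rw [dist_comm, Real.dist_eq]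
    refine (profSeq_dist n x).trans (le_of_eq ?_)
    rw [one_div, inv_pow]; simp
  have hcau : ∀ x, CauchySeq (fun n => profSeq n x) := fun x =>
    cauchySeq_of_le_geometric_two (C := 2) (hdist x)
  choose S hS using fun x => cauchySeq_tendsto_of_complete (hcau x)
  have hbd : ∀ x n, |profSeq n x - S x| ≤ 2 / 2 ^ n := fun x n => by
    have := dist_le_of_le_geometric_two_of_tendsto (hdist x) (hS x) n
    rwa [Real.dist_eq] at this
  have hpow : Filter.Tendsto (fun n : ℕ => (2:ℝ) / 2 ^ n) Filter.atTop (nhds 0) := by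
    have := (tendsto_pow_atTop_nhds_zero_of_lt_one (r := (1/2 : ℝ)) (by norm_num)
      (by norm_num)).const_mul 2
    simp only [mul_zero] at this
    refine this.congr fun n => ?_
    rw [one_div, inv_pow]; rfl
  have hunif : TendstoUniformly profSeq S Filter.atTop := by
    rw [Metric.tendstoUniformly_iff]
    intro ε hε
    filter_upwards [hpow.eventually (gt_mem_nhds hε)] with n hn x
    rw [dist_comm, Real.dist_eq]
    exact (hbd x n).trans_lt hn
  have hScont : Continuous S :=
    hunif.continuous (Filter.Frequently.of_forall fun n => (prof_profSeq n).cont)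
  have hfix : ∀ x, S x = avgT S x := by
    intro x
    have h1 : ∀ n, |S x - avgT S x| ≤ 2 / 2 ^ (n + 1) + 2 / 2 ^ n := by
      intro n
      have h2 : |profSeq (n + 1) x - avgT S x| ≤ 2 / 2 ^ n := by
        show |avgT (profSeq n) x - avgT S x| ≤ _
        rw [avgT_sub (prof_profSeq n).cont hScont]
        unfold avgT
        rw [abs_mul]
        have := intervalIntegral.norm_integral_le_of_norm_le_const (a := 2 * x - 1)
          (b := 2 * x + 1) (C := 2 / 2 ^ n) (f := fun s => profSeq n s - S s)
          (fun s _ => by simpa using hbd s n)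
        rw [show (2 * x + 1 - (2 * x - 1) : ℝ) = 2 by ring] at this
        simp only [Real.norm_eq_abs, abs_two] at this
        rw [show |(1 / 2 : ℝ)| = 1 / 2 by norm_num]
        linarith
      calc |S x - avgT S x| = |(S x - profSeq (n + 1) x) + (profSeq (n + 1) x - avgT S x)| := by
            ring_nf
        _ ≤ |S x - profSeq (n + 1) x| + |profSeq (n + 1) x - avgT S x| := abs_add_le _ _
        _ ≤ _ := add_le_add (by rw [abs_sub_comm]; exact hbd x (n + 1)) h2
    have h3 : Filter.Tendsto (fun n : ℕ => (2:ℝ) / 2 ^ (n + 1) + 2 / 2 ^ n) Filter.atTop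
        (nhds (0 + 0)) := ((Filter.tendsto_add_atTop_iff_nat 1).2 hpow).add hpow
    have h4 : |S x - avgT S x| ≤ 0 + 0 := ge_of_tendsto' h3 h1
    have h5 := abs_nonneg (S x - avgT S x)
    have h6 : |S x - avgT S x| = 0 := by linarith
    linarith [abs_eq_zero.1 h6]
  refine ⟨S, ?_, ?_, ?_, ?_, ?_⟩
  · intro x hx
    refine tendsto_nhds_unique (hS x) ?_
    simp only [(prof_profSeq _).left x hx]
    exact tendsto_const_nhds
  · intro x hx
    refine tendsto_nhds_unique (hS x) ?_
    simp only [(prof_profSeq _).right x hx]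
    exact tendsto_const_nhds
  · intro x
    exact ge_of_tendsto' (hS x) fun n => (prof_profSeq n).nonneg x
  · intro x
    exact le_of_tendsto' (hS x) fun n => (prof_profSeq n).le_one x
  · intro x
    have h := hasDerivAt_avgT hScont x
    refine h.congr_of_eventuallyEq (Filter.Eventually.of_forall fun y => ?_)
    exact hfix y

end Crest.Agent.BoxFlow
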