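import Mathlib
import Crest.Agent.RatComp
import Crest.Agent.RealComp
import Crest.Agent.BoxFlow.Step

namespace Crest.Agent.BoxFlow

open MeasureTheory intervalIntegral
open scoped ContDiff
open Crest.Agent.RatComp (rat_add rat_sub rat_neg rat_mul rat_natCast rat_one_div_succ rat_ite_le
  rat_sum rat_pow nat_pow nat_sum nadd nmul nsucc ndiv nmod nsub)

/-- the step function -/
noncomputable def stp : ℝ → ℝ := exists_step.choose

theorem stp_left {x : ℝ} (hx : x ≤ -1) : stp x = 0 := exists_step.choose_spec.1 x hx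
theorem stp_right {x : ℝ} (hx : 1 ≤ x) : stp x = 1 := exists_step.choose_spec.2.1 x hx
theorem stp_nonneg (x : ℝ) : 0 ≤ stp x := exists_step.choose_spec.2.2.1 x
theorem stp_le_one (x : ℝ) : stp x ≤ 1 := exists_step.choose_spec.2.2.2.1 x
theorem stp_hasDerivAt (x : ℝ) : HasDerivAt stp (stp (2 * x + 1) - stp (2 * x - 1)) x :=
  exists_step.choose_spec.2.2.2.2 x

theorem stp_deriv : deriv stp = fun x => stp (2 * x + 1) - stp (2 * x - 1) := by
  funext x; exact (stp_hasDerivAt x).deriv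

theorem stp_contDiff : ContDiff ℝ ∞ stp := by
  rw [contDiff_infty]
  intro n
  induction n with
  | zero =>
    rw [Nat.cast_zero, contDiff_zero]
    exact continuous_iff_continuousAt.2 fun x => (stp_hasDerivAt x).continuousAt
  | succ n ih =>
    have : ((n + 1 : ℕ) : WithTop ℕ∞) = (n : WithTop ℕ∞) + 1 := by push_cast; rfl
    rw [this, contDiff_succ_iff_deriv]
    refine ⟨fun x => (stp_hasDerivAt x).differentiableAt, by simp, ?_⟩
    rw [stp_deriv]
    exact (ih.comp (by fun_prop)).sub (ih.comp (by fun_prop))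

theorem stp_lip (x y : ℝ) : |stp x - stp y| ≤ |x - y| := by
  have h : ∀ z, |stp (2 * z + 1) - stp (2 * z - 1)| ≤ 1 := by
    intro z
    rw [abs_le]
    constructor <;> linarith [stp_nonneg (2 * z + 1), stp_le_one (2 * z + 1),
      stp_nonneg (2 * z - 1), stp_le_one (2 * z - 1)]
  have := Convex.norm_image_sub_le_of_norm_hasDerivWithin_le (f := stp) (s := Set.univ) (C := 1)
    (fun z _ => (stp_hasDerivAt z).hasDerivWithinAt) (fun z _ => h z) convex_univ
    (Set.mem_univ y) (Set.mem_univ x)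
  simpa using this

theorem stp_continuous : Continuous stp := stp_contDiff.continuous

theorem stp_fix (x : ℝ) : stp x = (1 / 2) * ∫ s in (2 * x - 1)..(2 * x + 1), stp s := by
  have h1 := hasDerivAt_avgT stp_continuous
  have h2 : ∀ z, HasDerivAt (fun z => stp z - avgT stp z) 0 z := fun z => by
    have := (stp_hasDerivAt z).sub (h1 z)
    rwa [sub_self] at this
  have h3 := is_const_of_deriv_eq_zero (fun z => (h2 z).differentiableAt)
    (fun z => (h2 z).deriv) x (-1)
  have h4 : avgT stp (-1) = 0 := by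
    unfold avgT
    have : ∫ s in (2 * (-1:ℝ) - 1)..(2 * (-1) + 1), stp s
        = ∫ s in (2 * (-1:ℝ) - 1)..(2 * (-1) + 1), (0:ℝ) := by
      apply intervalIntegral.integral_congr
      intro s hs
      rw [Set.uIcc_of_le (by norm_num)] at hs
      exact stp_left (by linarith [hs.2])
    rw [this]; simp
  simp only [h4, stp_left (le_refl (-1:ℝ)), sub_self] at h3
  have : stp x = avgT stp x := by linarith
  exact this

/-! ### iterated derivatives -/

def ee (k : ℕ) : ℕ := ∑ j ∈ Finset.range k, j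
def pc (k i : ℕ) : ℕ := ∑ j ∈ Finset.range k, (i / 2 ^ j) % 2

theorem pc_even (k i : ℕ) : pc (k + 1) (2 * i) = pc k i := by
  unfold pc
  rw [Finset.sum_range_succ']
  simp only [pow_zero, Nat.div_one, Nat.mul_mod_right, add_zero]
  apply Finset.sum_congr rfl
  intro j _
  congr 1
  rw [pow_succ', ← Nat.div_div_eq_div_mul]
  simp

theorem pc_odd (k i : ℕ) : pc (k + 1) (2 * i + 1) = pc k i + 1 := by
  unfold pc
  rw [Finset.sum_range_succ']
  have h : (2 * i + 1) / 2 ^ 0 % 2 = 1 := by simp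
  rw [h]
  congr 1
  apply Finset.sum_congr rfl
  intro j _
  congr 1
  rw [pow_succ', ← Nat.div_div_eq_div_mul]
  congr 1
  omega

theorem sum_range_two_mul (F : ℕ → ℝ) (M : ℕ) :
    ∑ m ∈ Finset.range (2 * M), F m = ∑ i ∈ Finset.range M, (F (2 * i) + F (2 * i + 1)) := by
  induction M with
  | zero => simp
  | succ M ih =>
    rw [show 2 * (M + 1) = 2 * M + 1 + 1 by ring, Finset.sum_range_succ, Finset.sum_range_succ, ih,
      Finset.sum_range_succ]
    ring

noncomputable def DS (k : ℕ) (x : ℝ) : ℝ :=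
  (2:ℝ) ^ (ee k) * ∑ i ∈ Finset.range (2 ^ k),
    (-1:ℝ) ^ (pc k i) * stp (2 ^ k * x + (2 ^ k - 1 - 2 * i))

theorem DS_hasDerivAt (k : ℕ) (x : ℝ) : HasDerivAt (DS k) (DS (k + 1) x) x := by
  have h1 : ∀ i ∈ Finset.range (2 ^ k), HasDerivAt
      (fun x => (-1:ℝ) ^ (pc k i) * stp (2 ^ k * x + (2 ^ k - 1 - 2 * i)))
      ((-1:ℝ) ^ (pc k i) * ((stp (2 * (2 ^ k * x + (2 ^ k - 1 - 2 * i)) + 1) -
        stp (2 * (2 ^ k * x + (2 ^ k - 1 - 2 * i)) - 1)) * 2 ^ k)) x := by
    intro i _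
    have h2 : HasDerivAt (fun x : ℝ => 2 ^ k * x + (2 ^ k - 1 - 2 * (i:ℝ))) (2 ^ k) x := by
      simpa using ((hasDerivAt_id x).const_mul ((2:ℝ) ^ k)).add_const (2 ^ k - 1 - 2 * (i:ℝ))
    exact ((stp_hasDerivAt _).comp x h2).const_mul _
  have h3 := (HasDerivAt.fun_sum h1).const_mul ((2:ℝ) ^ (ee k))
  have e : DS (k + 1) x = (2:ℝ) ^ (ee k) * ∑ i ∈ Finset.range (2 ^ k),
      ((-1:ℝ) ^ (pc k i) * ((stp (2 * (2 ^ k * x + (2 ^ k - 1 - 2 * i)) + 1) -
        stp (2 * (2 ^ k * x + (2 ^ k - 1 - 2 * i)) - 1)) * 2 ^ k)) := by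
    unfold DS
    rw [pow_succ' 2 k, sum_range_two_mul]
    have he : ee (k + 1) = ee k + k := by unfold ee; rw [Finset.sum_range_succ]
    rw [he, pow_add, mul_assoc]
    congr 1
    rw [Finset.mul_sum]
    apply Finset.sum_congr rfl
    intro i _
    rw [pc_even, pc_odd, pow_succ (-1:ℝ)]
    have e1 : (2:ℝ) * 2 ^ k * x + (2 * 2 ^ k - 1 - 2 * ((2 * i : ℕ) : ℝ)) =
      2 * (2 ^ k * x + (2 ^ k - 1 - 2 * i)) + 1 := by push_cast; ring
    have e2 : (2:ℝ) * 2 ^ k * x + (2 * 2 ^ k - 1 - 2 * ((2 * i + 1 : ℕ) : ℝ)) =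
      2 * (2 ^ k * x + (2 ^ k - 1 - 2 * i)) - 1 := by push_cast; ring
    simp only [pow_succ' (2:ℝ) k]
    rw [e1, e2]
    ring
  rw [e]
  exact h3

theorem iteratedDeriv_stp (k : ℕ) : iteratedDeriv k stp = DS k := by
  induction k with
  | zero =>
    funext x
    simp [DS, ee, pc]
  | succ k ih =>
    rw [iteratedDeriv_succ, ih]
    funext x
    exact (DS_hasDerivAt k x).deriv

theorem DS_bound (k : ℕ) (x : ℝ) : |DS k x| ≤ ((2 ^ ee k * 2 ^ k : ℕ) : ℝ) := by
  unfold DS
  rw [abs_mul]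
  push_cast
  rw [abs_of_nonneg (by positivity : (0:ℝ) ≤ 2 ^ ee k)]
  apply mul_le_mul_of_nonneg_left _ (by positivity)
  refine (Finset.abs_sum_le_sum_abs _ _).trans ?_
  have : ∀ i ∈ Finset.range (2 ^ k),
      |(-1:ℝ) ^ (pc k i) * stp (2 ^ k * x + (2 ^ k - 1 - 2 * i))| ≤ 1 := by
    intro i _
    rw [abs_mul, abs_pow, abs_neg, abs_one, one_pow, one_mul, abs_of_nonneg (stp_nonneg _)]
    exact stp_le_one _
  refine (Finset.sum_le_sum this).trans ?_
  simp

/-! ### counting approximation of `stp` -/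

/-- the quadrature operator -/
noncomputable def TN (N : ℕ) (f : ℝ → ℝ) (x : ℝ) : ℝ :=
  (1 / (N : ℝ)) * ∑ j ∈ Finset.range N, f (2 * x - 1 + 2 * j / N)

theorem TN_mono {N : ℕ} {f g : ℝ → ℝ} {x y c : ℝ} (hN : 0 < N)
    (h : ∀ j : ℕ, f (2 * x - 1 + 2 * j / N) ≤ g (2 * y - 1 + 2 * j / N) + c) :
    TN N f x ≤ TN N g y + c := by
  unfold TN
  have hN' : (0:ℝ) < N := by exact_mod_cast hN
  have h1 : ∑ j ∈ Finset.range N, f (2 * x - 1 + 2 * j / N) ≤
      ∑ j ∈ Finset.range N, (g (2 * y - 1 + 2 * j / N) + c) := Finset.sum_le_sum fun j _ => h j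
  rw [Finset.sum_add_distrib, Finset.sum_const, Finset.card_range, nsmul_eq_mul] at h1
  have h2 := mul_le_mul_of_nonneg_left h1 (by positivity : (0:ℝ) ≤ 1 / N)
  refine h2.trans (le_of_eq ?_)
  field_simp

theorem TN_stp {N : ℕ} (hN : 0 < N) (x : ℝ) : |TN N stp x - stp x| ≤ 2 / N := by
  have hN' : (0:ℝ) < N := by exact_mod_cast hN
  let a : ℕ → ℝ := fun j => 2 * x - 1 + 2 * j / N
  have hint : ∀ u v : ℝ, IntervalIntegrable stp volume u v := fun u v =>
    stp_continuous.intervalIntegrable u v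
  have h1 : ∑ j ∈ Finset.range N, ∫ s in (a j)..(a (j + 1)), stp s =
      ∫ s in (a 0)..(a N), stp s :=
    intervalIntegral.sum_integral_adjacent_intervals fun j _ => hint _ _
  have ha0 : a 0 = 2 * x - 1 := by simp [a]
  have haN : a N = 2 * x + 1 := by
    simp only [a]
    field_simp
    ring
  have hfix := stp_fix x
  rw [ha0, haN] at h1
  rw [← h1] at hfix
  have hstep : ∀ j : ℕ, |stp (a j) * (2 / N) - ∫ s in (a j)..(a (j + 1)), stp s| ≤ (2 / N) * (2 / N) := by
    intro j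
    have hlen : a (j + 1) - a j = 2 / N := by
      simp only [a]; push_cast; field_simp; ring
    have e1 : stp (a j) * (2 / N) = ∫ s in (a j)..(a (j + 1)), stp (a j) := by
      rw [intervalIntegral.integral_const, hlen, smul_eq_mul, mul_comm]
    rw [e1, ← intervalIntegral.integral_sub (by simp) (hint _ _)]
    have h3 := intervalIntegral.norm_integral_le_of_norm_le_const (a := a j) (b := a (j + 1))
      (f := fun s => stp (a j) - stp s) (C := 2 / N) (fun s hs => by
        rw [Set.uIoc_of_le (by linarith [hlen, (by positivity : (0:ℝ) ≤ 2 / N)])] at hs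
        rw [Real.norm_eq_abs]
        refine (stp_lip _ _).trans ?_
        rw [abs_le]
        constructor <;> linarith [hs.1, hs.2, (by positivity : (0:ℝ) ≤ 2 / N)])
    rw [hlen, abs_of_nonneg (by positivity : (0:ℝ) ≤ 2 / N)] at h3
    exact h3
  have e2 : TN N stp x - stp x = (1 / 2) * ∑ j ∈ Finset.range N,
      (stp (a j) * (2 / N) - ∫ s in (a j)..(a (j + 1)), stp s) := by
    rw [Finset.sum_sub_distrib, mul_sub, ← hfix, ← Finset.sum_mul]
    congr 1
    change (1 / (N:ℝ)) * ∑ j ∈ Finset.range N, stp (a j) = _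
    field_simp
  rw [e2, abs_mul, abs_of_pos (by norm_num : (0:ℝ) < 1 / 2)]
  have h4 : |∑ j ∈ Finset.range N, (stp (a j) * (2 / N) - ∫ s in (a j)..(a (j + 1)), stp s)| ≤
      N * ((2 / N) * (2 / N)) := by
    refine (Finset.abs_sum_le_sum_abs _ _).trans ?_
    refine (Finset.sum_le_sum fun j _ => hstep j).trans ?_
    rw [Finset.sum_const, Finset.card_range, nsmul_eq_mul]
  have h5 : (1 / 2 : ℝ) * (N * ((2 / N) * (2 / N))) = 2 / N := by field_simp
  have h6 := mul_le_mul_of_nonneg_left h4 (by norm_num : (0:ℝ) ≤ 1 / 2)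
  rwa [h5] at h6

/-- iterated quadrature starting from the Heaviside function -/
noncomputable def aR (N : ℕ) : ℕ → ℝ → ℝ
  | 0, x => if 0 ≤ x then 1 else 0
  | n + 1, x => TN N (aR N n) x

theorem aR_sandwich {N : ℕ} (hN : 0 < N) (n : ℕ) (x : ℝ) :
    stp (x - (1 / 2) ^ n) - n * (2 / N) ≤ aR N n x ∧
    aR N n x ≤ stp (x + (1 / 2) ^ n) + n * (2 / N) := by
  induction n generalizing x with
  | zero =>
    simp only [aR, pow_zero, Nat.cast_zero, zero_mul, sub_zero, add_zero]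
    by_cases hx : 0 ≤ x
    · rw [if_pos hx]
      exact ⟨stp_le_one _, by rw [stp_right (by linarith)]⟩
    · rw [if_neg hx]
      push Not at hx
      exact ⟨by rw [stp_left (by linarith)], stp_nonneg _⟩
  | succ n ih =>
    have hp : (2:ℝ) * (1 / 2) ^ (n + 1) = (1 / 2) ^ n := by rw [pow_succ]; ring
    simp only [aR]
    have q1 := abs_le.1 (TN_stp hN (x - (1 / 2) ^ (n + 1)))
    have q2 := abs_le.1 (TN_stp hN (x + (1 / 2) ^ (n + 1)))
    constructor
    · have := TN_mono (N := N) (f := stp) (g := aR N n) (x := x - (1 / 2) ^ (n + 1)) (y := x)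
        (c := n * (2 / N)) hN (fun j => by
          have := (ih (2 * x - 1 + 2 * j / N)).1
          rw [show 2 * (x - (1 / 2) ^ (n + 1)) - 1 + 2 * (j:ℝ) / N =
            2 * x - 1 + 2 * j / N - (1 / 2) ^ n by rw [← hp]; ring]
          linarith)
      push_cast
      linarith [q1.1, q1.2]
    · have := TN_mono (N := N) (f := aR N n) (g := stp) (y := x + (1 / 2) ^ (n + 1)) (x := x)
        (c := n * (2 / N)) hN (fun j => by
          have := (ih (2 * x - 1 + 2 * j / N)).2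
          rw [show 2 * (x + (1 / 2) ^ (n + 1)) - 1 + 2 * (j:ℝ) / N =
            2 * x - 1 + 2 * j / N + (1 / 2) ^ n by rw [← hp]; ring]
          linarith)
      push_cast
      linarith [q2.1, q2.2]

theorem aR_close {N : ℕ} (hN : 0 < N) (n : ℕ) (x : ℝ) :
    |stp x - aR N n x| ≤ (1 / 2) ^ n + n * (2 / N) := by
  obtain ⟨h1, h2⟩ := aR_sandwich hN n x
  have hp : (0:ℝ) < (1 / 2) ^ n := by positivity
  have h3 := stp_lip (x - (1 / 2) ^ n) x
  have h4 := stp_lip (x + (1 / 2) ^ n) x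
  rw [show x - (1 / 2) ^ n - x = -(1 / 2 : ℝ) ^ n by ring, abs_neg, abs_of_pos hp] at h3
  rw [show x + (1 / 2) ^ n - x = (1 / 2 : ℝ) ^ n by ring, abs_of_pos hp] at h4
  rw [abs_le] at h3 h4 ⊢
  constructor <;> linarith [h3.1, h3.2, h4.1, h4.2]

/-- displacement attached to a digit sequence -/
def WQ (N n c : ℕ) : ℚ :=
  ∑ k ∈ Finset.range n, 2 ^ k * (-1 + 2 * (((c / N ^ k) % N : ℕ) : ℚ) * (1 / (((N - 1 : ℕ) : ℚ) + 1)))

/-- counting approximation -/
def aQ (N n : ℕ) (q : ℚ) : ℚ :=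
  (1 / (((N ^ n - 1 : ℕ) : ℚ) + 1)) *
    ∑ c ∈ Finset.range (N ^ n), if 0 ≤ 2 ^ n * q + WQ N n c then 1 else 0

theorem sum_range_mul' {M : Type*} [AddCommMonoid M] (A B : ℕ) (F : ℕ → M) :
    ∑ c ∈ Finset.range (A * B), F c =
      ∑ j ∈ Finset.range B, ∑ i ∈ Finset.range A, F (i + A * j) := by
  induction B with
  | zero => simp
  | succ B ih =>
    rw [Nat.mul_succ, Finset.sum_range_add, ih, Finset.sum_range_succ]
    congr 1
    apply Finset.sum_congr rfl
    intro i _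
    rw [add_comm]

theorem WQ_succ {N n i j : ℕ} (hN : 0 < N) (hi : i < N ^ n) (hj : j < N) :
    WQ N (n + 1) (i + N ^ n * j) = WQ N n i + 2 ^ n * (-1 + 2 * (j:ℚ) / N) := by
  unfold WQ
  rw [Finset.sum_range_succ]
  have hN1 : ((N - 1 : ℕ) : ℚ) + 1 = N := by
    rw [Nat.cast_sub hN]; push_cast; ring
  congr 1
  · apply Finset.sum_congr rfl
    intro k hk
    rw [Finset.mem_range] at hk
    have : (i + N ^ n * j) / N ^ k % N = i / N ^ k % N := by
      obtain ⟨m, rfl⟩ : ∃ m, n = k + 1 + m := ⟨n - (k + 1), by omega⟩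
      have e1 : N ^ (k + 1 + m) * j = N ^ k * (N * (N ^ m * j)) := by ring
      rw [e1, Nat.add_mul_div_left _ _ (by positivity), Nat.add_mul_mod_self_left]
    rw [this]
  · have : (i + N ^ n * j) / N ^ n % N = j := by
      rw [Nat.add_mul_div_left _ _ (by positivity), Nat.div_eq_of_lt hi, zero_add,
        Nat.mod_eq_of_lt hj]
    rw [this, hN1]
    ring

theorem aQ_eq {N : ℕ} (hN : 0 < N) (n : ℕ) (q : ℚ) : ((aQ N n q : ℚ) : ℝ) = aR N n q := by
  have key : ∀ n (q : ℚ), ((1 / ((N:ℚ) ^ n)) *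
    ∑ c ∈ Finset.range (N ^ n), (if 0 ≤ 2 ^ n * q + WQ N n c then (1:ℚ) else 0) : ℚ) =
      (aR N n q : ℝ) := by
    intro n
    induction n with
    | zero =>
      intro q
      simp only [aR, pow_zero, Finset.range_one, Finset.sum_singleton, one_mul]
      have : WQ N 0 0 = 0 := by simp [WQ]
      rw [this, add_zero]
      by_cases hq : 0 ≤ q
      · have : (0:ℝ) ≤ q := by exact_mod_cast hq
        simp [hq, this]
      · have : ¬ (0:ℝ) ≤ q := by exact_mod_cast hq
        simp [hq, this]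
    | succ n ih =>
      intro q
      simp only [aR, TN]
      have hNq : (N:ℚ) ≠ 0 := by exact_mod_cast hN.ne'
      have e1 : ∀ j : ℕ, aR N n (2 * (q:ℝ) - 1 + 2 * j / N) =
        (((1 / ((N:ℚ) ^ n)) * ∑ c ∈ Finset.range (N ^ n),
          (if 0 ≤ 2 ^ n * (2 * q - 1 + 2 * j / N) + WQ N n c then (1:ℚ) else 0) : ℚ) : ℝ) := by
        intro j
        rw [ih]
        congr 1
        push_cast
        ring
      simp only [e1]
      rw [pow_succ N n, sum_range_mul']
      have e2 : ∀ j ∈ Finset.range N, ∑ i ∈ Finset.range (N ^ n),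
          (if 0 ≤ 2 ^ (n + 1) * q + WQ N (n + 1) (i + N ^ n * j) then (1:ℚ) else 0) =
          ∑ c ∈ Finset.range (N ^ n),
          (if 0 ≤ 2 ^ n * (2 * q - 1 + 2 * j / N) + WQ N n c then (1:ℚ) else 0) := by
        intro j hj
        apply Finset.sum_congr rfl
        intro i hi
        rw [Finset.mem_range] at hi hj
        rw [WQ_succ hN hi hj]
        have : 2 ^ (n + 1) * q + (WQ N n i + 2 ^ n * (-1 + 2 * (j:ℚ) / N)) =
          2 ^ n * (2 * q - 1 + 2 * j / N) + WQ N n i := by rw [pow_succ]; ring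
        rw [this]
      rw [Finset.sum_congr rfl e2]
      push_cast
      rw [← Finset.mul_sum, ← mul_assoc]
      congr 1
      rw [pow_succ]
      field_simp
  rw [← key]
  unfold aQ
  have : ((N ^ n - 1 : ℕ) : ℚ) + 1 = (N:ℚ) ^ n := by
    rw [Nat.cast_sub (Nat.one_le_pow _ _ hN)]; push_cast; ring
  rw [this]

/-- computable approximation of `stp` -/
def stpQ (q : ℚ) (m : ℕ) : ℚ := aQ (4 * (m + 1) ^ 2) (m + 1) q

theorem stpQ_close (q : ℚ) (m : ℕ) : |stp (q : ℝ) - (stpQ q m : ℝ)| ≤ 1 / ((m:ℝ) + 1) := by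
  unfold stpQ
  have hN : 0 < 4 * (m + 1) ^ 2 := by positivity
  rw [aQ_eq hN]
  refine (aR_close hN _ _).trans ?_
  have h1 : ((1:ℝ) / 2) ^ (m + 1) ≤ 1 / (2 * ((m:ℝ) + 1)) := by
    have h2 : m + 1 ≤ 2 ^ m := Nat.lt_two_pow_self
    have h3 : ((m:ℝ) + 1) ≤ 2 ^ m := by exact_mod_cast h2
    rw [div_pow, one_pow, pow_succ']
    apply one_div_le_one_div_of_le (by positivity)
    linarith
  have h2 : (((m + 1 : ℕ)) : ℝ) * (2 / ((4 * (m + 1) ^ 2 : ℕ) : ℝ)) = 1 / (2 * ((m:ℝ) + 1)) := by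
    push_cast
    field_simp
    norm_num
  rw [h2]
  have h3 : (1:ℝ) / (2 * ((m:ℝ) + 1)) = 1 / ((m:ℝ) + 1) / 2 := by
    rw [div_div]; congr 1; ring
  rw [h3] at h1 ⊢
  linarith

theorem computable_stpQ {α : Type*} [Primcodable α] {f : α → ℚ} {g : α → ℕ} (hf : Computable f)
    (hg : Computable g) : Computable (fun a => stpQ (f a) (g a)) := by
  unfold stpQ aQ WQ
  have hm : Computable (fun a => g a + 1) := nsucc hg
  have hN : Computable (fun a => 4 * (g a + 1) ^ 2) :=
    nmul (Computable.const 4) (nat_pow hm (Computable.const 2))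
  have hNn : Computable (fun a => (4 * (g a + 1) ^ 2) ^ (g a + 1)) := nat_pow hN hm
  refine rat_mul (rat_one_div_succ (nsub hNn (Computable.const 1))) ?_
  refine rat_sum ?_ hNn
  have h1 : Computable (fun x : α × ℕ => (2:ℚ) ^ (g x.1 + 1) * f x.1 +
      ∑ k ∈ Finset.range (g x.1 + 1), 2 ^ k * (-1 + 2 * (((x.2 / (4 * (g x.1 + 1) ^ 2) ^ k) %
        (4 * (g x.1 + 1) ^ 2) : ℕ) : ℚ) * (1 / (((4 * (g x.1 + 1) ^ 2 - 1 : ℕ) : ℚ) + 1)))) := by
    refine rat_add (rat_mul (rat_pow (Computable.const 2) (hm.comp Computable.fst))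
      (hf.comp Computable.fst)) ?_
    refine rat_sum ?_ (hm.comp Computable.fst)
    have hN2 : Computable (fun y : (α × ℕ) × ℕ => 4 * (g y.1.1 + 1) ^ 2) :=
      hN.comp (Computable.fst.comp Computable.fst)
    refine rat_mul (rat_pow (Computable.const 2) Computable.snd) ?_
    refine rat_add (Computable.const (-1)) ?_
    refine rat_mul (rat_mul (Computable.const 2) (rat_natCast (nmod (ndiv
      (Computable.snd.comp Computable.fst) (nat_pow hN2 Computable.snd)) hN2))) ?_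
    exact rat_one_div_succ (nsub hN2 (Computable.const 1))
  exact rat_ite_le (Computable.const 0) h1 (Computable.const 1) (Computable.const 0)

open Crest.Agent.RealComp

theorem RC.stp {α : Type*} [Primcodable α] {g : α → ℚ} (hg : Computable g) :
    RC (fun a => stp (g a : ℝ)) :=
  ⟨fun p => stpQ (g p.1) p.2, computable_stpQ (hg.comp Computable.fst) Computable.snd,
    fun _ _ => stpQ_close _ _⟩

end Crest.Agent.BoxFlow
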