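import Mathlib
import Crest.Agent.RatComp
import Crest.Agent.RealComp
import Crest.Agent.BoxFlow.StepEff

namespace Crest.Agent.BoxFlow

open scoped ContDiff
open Crest.Agent.RatComp (rat_add rat_sub rat_neg rat_mul rat_natCast rat_one_div_succ rat_ite_le
  rat_sum rat_pow nat_pow nat_sum nadd nmul nsucc ndiv nmod nsub)
open Crest.Agent.RealComp

/-- a derivative sequence, effectively computable and effectively bounded -/
structure DEff (D : ℕ → ℝ → ℝ) : Prop where
  deriv : ∀ k x, HasDerivAt (D k) (D (k + 1) x) x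
  rc : RC (fun a : ℕ × ℚ => D a.1 (a.2 : ℝ))
  bd : ∃ B : ℕ → ℕ, Computable B ∧ ∀ k x, |D k x| ≤ (B k : ℝ)

theorem DEff.contDiff {D : ℕ → ℝ → ℝ} (h : DEff D) (k : ℕ) : ContDiff ℝ ∞ (D k) := by
  rw [contDiff_infty]
  intro n
  induction n generalizing k with
  | zero =>
    rw [Nat.cast_zero, contDiff_zero]
    exact continuous_iff_continuousAt.2 fun x => (h.deriv k x).continuousAt
  | succ n ih =>
    have : ((n + 1 : ℕ) : WithTop ℕ∞) = (n : WithTop ℕ∞) + 1 := by push_cast; rfl
    rw [this, contDiff_succ_iff_deriv]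
    refine ⟨fun x => (h.deriv k x).differentiableAt, by simp, ?_⟩
    have : _root_.deriv (D k) = D (k + 1) := funext fun x => (h.deriv k x).deriv
    rw [this]
    exact ih (k + 1)

theorem DEff_DS : DEff DS where
  deriv := DS_hasDerivAt
  rc := by
    unfold DS
    have hk : Computable (fun a : ℕ × ℚ => a.1) := Computable.fst
    have hee : Computable (fun a : ℕ × ℚ => ee a.1) := by
      unfold ee
      exact nat_sum (Computable.snd) hk
    have h2 : Computable (fun a : ℕ × ℚ => 2 ^ a.1) := nat_pow (Computable.const 2) hk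
    have h1 : RC (fun a : ℕ × ℚ => (2:ℝ) ^ ee a.1) := by
      refine (RC.of_rat (rat_pow (Computable.const 2) hee)).of_eq fun a => ?_
      push_cast; rfl
    refine h1.mul (RC.sum ?_ h2)
    have hpc : Computable (fun p : (ℕ × ℚ) × ℕ => pc p.1.1 p.2) := by
      unfold pc
      refine nat_sum ?_ (hk.comp Computable.fst)
      have hi : Computable (fun q : ((ℕ × ℚ) × ℕ) × ℕ => q.1.2) := Computable.snd.comp Computable.fst
      exact nmod (ndiv hi (nat_pow (Computable.const 2) Computable.snd)) (Computable.const 2)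
    have h3 : RC (fun p : (ℕ × ℚ) × ℕ => (-1:ℝ) ^ pc p.1.1 p.2) := by
      refine (RC.of_rat (rat_pow (Computable.const (-1)) hpc)).of_eq fun a => ?_
      push_cast; rfl
    refine h3.mul ?_
    have h4 : Computable (fun p : (ℕ × ℚ) × ℕ => (2:ℚ) ^ p.1.1 * p.1.2 +
        (2 ^ p.1.1 - 1 - 2 * (p.2 : ℚ))) := by
      have h5 : Computable (fun p : (ℕ × ℚ) × ℕ => (2:ℚ) ^ p.1.1) :=
        rat_pow (Computable.const 2) (hk.comp Computable.fst)
      exact rat_add (rat_mul h5 (Computable.snd.comp Computable.fst))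
        (rat_sub (rat_sub h5 (Computable.const 1))
          (rat_mul (Computable.const 2) (rat_natCast Computable.snd)))
    refine (RC.stp h4).of_eq fun p => ?_
    push_cast; rfl
  bd := by
    refine ⟨fun k => 2 ^ ee k * 2 ^ k, ?_, DS_bound⟩
    have hee : Computable ee := by
      unfold ee
      exact nat_sum (Computable.snd) Computable.id
    exact nmul (nat_pow (Computable.const 2) hee) (nat_pow (Computable.const 2) Computable.id)

theorem DEff.add {D E : ℕ → ℝ → ℝ} (h : DEff D) (g : DEff E) : DEff (fun k x => D k x + E k x) where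
  deriv := fun k x => (h.deriv k x).add (g.deriv k x)
  rc := h.rc.add g.rc
  bd := by
    obtain ⟨B, hB, h1⟩ := h.bd
    obtain ⟨C, hC, h2⟩ := g.bd
    refine ⟨fun k => B k + C k, nadd hB hC, fun k x => ?_⟩
    push_cast
    exact (abs_add_le _ _).trans (add_le_add (h1 k x) (h2 k x))

theorem exists_nat_abs_le (c : ℚ) : ∃ A : ℕ, |(c:ℝ)| ≤ A := exists_nat_ge _

theorem DEff.const_mul {D : ℕ → ℝ → ℝ} (h : DEff D) (c : ℚ) : DEff (fun k x => (c:ℝ) * D k x) where
  deriv := fun k x => (h.deriv k x).const_mul _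
  rc := (RC.of_rat (Computable.const c)).mul h.rc
  bd := by
    obtain ⟨B, hB, h1⟩ := h.bd
    obtain ⟨A, hA⟩ := exists_nat_abs_le c
    refine ⟨fun k => A * B k, nmul (Computable.const A) hB, fun k x => ?_⟩
    push_cast
    rw [abs_mul]
    exact mul_le_mul hA (h1 k x) (abs_nonneg _) (by positivity)

theorem DEff.affine {D : ℕ → ℝ → ℝ} (h : DEff D) (α β : ℚ) :
    DEff (fun k x => (α:ℝ) ^ k * D k (α * x + β)) where
  deriv := fun k x => by
    have h1 : HasDerivAt (fun x : ℝ => (α:ℝ) * x + β) α x := by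
      simpa using ((hasDerivAt_id x).const_mul (α:ℝ)).add_const (β:ℝ)
    have h2 := ((h.deriv k ((α:ℝ) * x + β)).comp x h1).const_mul ((α:ℝ) ^ k)
    refine h2.congr_deriv ?_
    rw [pow_succ]; ring
  rc := by
    have h1 : RC (fun a : ℕ × ℚ => (α:ℝ) ^ a.1) := by
      refine (RC.of_rat (rat_pow (Computable.const α) Computable.fst)).of_eq fun a => ?_
      push_cast; rfl
    refine h1.mul ?_
    have h2 : Computable (fun a : ℕ × ℚ => (a.1, α * a.2 + β)) :=
      Computable.fst.pair (rat_add (rat_mul (Computable.const α) Computable.snd)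
        (Computable.const β))
    refine (h.rc.comp h2).of_eq fun a => ?_
    push_cast; rfl
  bd := by
    obtain ⟨B, hB, h1⟩ := h.bd
    obtain ⟨A, hA⟩ := exists_nat_abs_le α
    refine ⟨fun k => A ^ k * B k, nmul (nat_pow (Computable.const A) Computable.id) hB,
      fun k x => ?_⟩
    push_cast
    rw [abs_mul, abs_pow]
    exact mul_le_mul (pow_le_pow_left₀ (abs_nonneg _) hA k) (h1 k _) (abs_nonneg _) (by positivity)

theorem DEff.shift {D : ℕ → ℝ → ℝ} (h : DEff D) : DEff (fun k x => D (k + 1) x) where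
  deriv := fun k x => h.deriv (k + 1) x
  rc := h.rc.comp (g := fun a : ℕ × ℚ => (a.1 + 1, a.2)) ((nsucc Computable.fst).pair Computable.snd)
  bd := by
    obtain ⟨B, hB, h1⟩ := h.bd
    exact ⟨fun k => B (k + 1), hB.comp (nsucc Computable.id), fun k x => h1 (k + 1) x⟩

theorem DEff.zero_of_zero {D : ℕ → ℝ → ℝ} (h : DEff D) {s : Set ℝ} (hs : IsOpen s)
    (h0 : ∀ x ∈ s, D 0 x = 0) (k : ℕ) : ∀ x ∈ s, D k x = 0 := by
  induction k with
  | zero => exact h0
  | succ k ih =>
    intro x hx
    have h1 : D k =ᶠ[nhds x] fun _ => (0:ℝ) :=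
      Filter.eventually_of_mem (hs.mem_nhds hx) ih
    exact (h.deriv k x).unique ((hasDerivAt_const x (0:ℝ)).congr_of_eventuallyEq h1)

theorem DEff.mul_x {D : ℕ → ℝ → ℝ} (h : DEff D) (R : ℕ) (h0 : ∀ x, (R:ℝ) < |x| → D 0 x = 0) :
    DEff (fun k x => x * D k x + k * D (k - 1) x) where
  deriv := fun k x => by
    have h1 : HasDerivAt (fun x => x * D k x) (1 * D k x + x * D (k + 1) x) x :=
      (hasDerivAt_id x).mul (h.deriv k x)
    cases k with
    | zero =>
      have h3 : (fun x : ℝ => x * D 0 x + ((0:ℕ):ℝ) * D (0 - 1) x) = fun x => x * D 0 x := by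
        funext y; simp
      rw [h3]
      refine h1.congr_deriv ?_
      simp only [Nat.add_sub_cancel]
      push_cast
      ring
    | succ k =>
      have h2 := (h.deriv k x).const_mul (((k + 1 : ℕ) : ℝ))
      refine (h1.add h2).congr_deriv ?_
      simp only [Nat.add_sub_cancel]
      push_cast
      ring
  rc := by
    refine (RC.mul (RC.of_rat Computable.snd) h.rc).add (RC.mul (g := fun a : ℕ × ℚ =>
      D (a.1 - 1) (a.2:ℝ)) ((RC.of_rat (rat_natCast Computable.fst)).of_eq fun a => by push_cast; rfl)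
      (h.rc.comp (g := fun a : ℕ × ℚ => (a.1 - 1, a.2))
        ((nsub Computable.fst (Computable.const 1)).pair Computable.snd)))
  bd := by
    obtain ⟨B, hB, h1⟩ := h.bd
    refine ⟨fun k => R * B k + k * B (k - 1), nadd (nmul (Computable.const R) hB)
      (nmul Computable.id (hB.comp (nsub Computable.id (Computable.const 1)))), fun k x => ?_⟩
    push_cast
    refine (abs_add_le _ _).trans (add_le_add ?_ ?_)
    · rw [abs_mul]
      by_cases hx : (R:ℝ) < |x|
      · have : D k x = 0 := h.zero_of_zero (s := {x | (R:ℝ) < |x|})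
          (isOpen_lt continuous_const continuous_abs) h0 k x hx
        rw [this, abs_zero, mul_zero]
        positivity
      · push Not at hx
        exact mul_le_mul hx (h1 k x) (abs_nonneg _) (by positivity)
    · rw [abs_mul, abs_of_nonneg (Nat.cast_nonneg k)]
      exact mul_le_mul_of_nonneg_left (h1 _ x) (by positivity)

end Crest.Agent.BoxFlow
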