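import Mathlib
import Crest.Prelude.Def_BoxFlow
import Crest.Agent.RatComp
import Crest.Agent.RealComp
import Crest.Agent.BoxFlow.UEff

namespace Crest.Agent.BoxFlow

open scoped ContDiff
open Crest.Agent.RatComp (rat_add rat_sub rat_neg rat_mul rat_natCast rat_one_div_succ rat_ite_le
  rat_sum rat_pow nat_pow nat_sum nadd nmul nsucc ndiv nmod nsub)
open Crest.Agent.RealComp
open Crest.AnalysisR.BoxFlow

abbrev ST : Type := ℝ × (Fin 3 → ℝ)

def coord (p : ST) (i : Fin 4) : ℝ := if h : i = 0 then p.1 else p.2 (i.pred h)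

theorem coord_zero (p : ST) : coord p 0 = p.1 := by simp [coord]
theorem coord_succ (p : ST) (j : Fin 3) : coord p j.succ = p.2 j := by
  simp [coord]

theorem coord_line (p v : ST) (s : ℝ) (i : Fin 4) : coord (p + s • v) i = coord p i + s * coord v i := by
  unfold coord
  by_cases h : i = 0 <;> simp [h]

theorem coord_direction (d i : Fin 4) : coord (direction d) i = if i = d then 1 else 0 := by
  unfold coord direction
  by_cases h : i = 0
  · by_cases h' : d = 0
    · simp [h, h']
    · simp [h, h', Ne.symm h']
  · by_cases h' : d = 0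
    · simp [h, h']
    · simp only [h, h', dite_false]
      by_cases h2 : i = d
      · subst h2; simp
      · rw [if_neg h2, Pi.single_eq_of_ne]
        intro h3
        exact h2 (by rw [← Fin.succ_pred i h, ← Fin.succ_pred d h', h3])

theorem coord_contDiff (i : Fin 4) : ContDiff ℝ ∞ (fun p : ST => coord p i) := by
  unfold coord
  by_cases h : i = 0
  · simp only [h, dite_true]; exact contDiff_fst
  · simp only [h, dite_false]
    exact (contDiff_apply ℝ ℝ (i.pred h)).comp contDiff_snd

/-- a separated product -/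
def sepD (D : Fin 4 → ℕ → ℝ → ℝ) (m : Fin 4 → ℕ) (p : ST) : ℝ := ∏ i, D i (m i) (coord p i)

theorem sepD_contDiff {D : Fin 4 → ℕ → ℝ → ℝ} (h : ∀ i, DEff (D i)) (m : Fin 4 → ℕ) :
    ContDiff ℝ ∞ (sepD D m) := by
  unfold sepD
  exact contDiff_prod fun i _ => ((h i).contDiff (m i)).comp (coord_contDiff i)

theorem sepD_differentiable {D : Fin 4 → ℕ → ℝ → ℝ} (h : ∀ i, DEff (D i)) (m : Fin 4 → ℕ) :
    Differentiable ℝ (sepD D m) := (sepD_contDiff h m).differentiable (by simp)

theorem sepD_fderiv {D : Fin 4 → ℕ → ℝ → ℝ} (h : ∀ i, DEff (D i)) (m : Fin 4 → ℕ) (p : ST)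
    (d : Fin 4) : fderiv ℝ (sepD D m) p (direction d) = sepD D (m + Pi.single d 1) p := by
  have h1 : HasDerivAt (fun s : ℝ => sepD D m (p + s • direction d))
      (fderiv ℝ (sepD D m) p (direction d)) 0 := by
    have e1 : HasDerivAt (fun s : ℝ => p + s • direction d) (direction d) 0 := by
      simpa using ((hasDerivAt_id (0:ℝ)).smul_const (direction d)).const_add p
    have e2 : HasFDerivAt (sepD D m) (fderiv ℝ (sepD D m) p) (p + (0:ℝ) • direction d) := by
      rw [zero_smul, add_zero]
      exact (sepD_differentiable h m p).hasFDerivAt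
    exact e2.comp_hasDerivAt 0 e1
  have h2 : (fun s : ℝ => sepD D m (p + s • direction d)) =
      fun s => D d (m d) (coord p d + s) * ∏ i ∈ Finset.univ.erase d, D i (m i) (coord p i) := by
    funext s
    unfold sepD
    rw [← Finset.mul_prod_erase Finset.univ _ (Finset.mem_univ d)]
    congr 1
    · rw [coord_line, coord_direction, if_pos rfl, mul_one]
    · apply Finset.prod_congr rfl
      intro i hi
      rw [coord_line, coord_direction, if_neg (Finset.ne_of_mem_erase hi), mul_zero, add_zero]
  rw [h2] at h1
  have h3 : HasDerivAt (fun s : ℝ => D d (m d) (coord p d + s) *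
      ∏ i ∈ Finset.univ.erase d, D i (m i) (coord p i))
      (D d (m d + 1) (coord p d) * ∏ i ∈ Finset.univ.erase d, D i (m i) (coord p i)) 0 := by
    apply HasDerivAt.mul_const
    have e1 : HasDerivAt (fun s : ℝ => coord p d + s) 1 0 := (hasDerivAt_id (0:ℝ)).const_add _
    have e2 : HasDerivAt (D d (m d)) (D d (m d + 1) (coord p d)) (coord p d + 0) := by
      rw [add_zero]; exact (h d).deriv _ _
    exact (e2.comp 0 e1).congr_deriv (mul_one _)
  rw [h1.unique h3]
  unfold sepD
  rw [← Finset.mul_prod_erase Finset.univ _ (Finset.mem_univ d)]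
  congr 1
  · simp
  · apply Finset.prod_congr rfl
    intro i hi
    simp [Pi.single_eq_of_ne (Finset.ne_of_mem_erase hi)]

/-- effective families of mixed derivatives -/
structure MEff (M : List (Fin 4) → ST → ℝ) : Prop where
  diff : ∀ ds, Differentiable ℝ (M ds)
  deriv : ∀ ds d p, fderiv ℝ (M ds) p (direction d) = M (d :: ds) p
  rc : RC (fun a : List (Fin 4) × (ℚ × (Fin 3 → ℚ)) => M a.1 ((a.2.1 : ℝ), ratPoint a.2.2))
  bd : ∃ B : List (Fin 4) → ℕ, Computable B ∧ ∀ ds p, |M ds p| ≤ (B ds : ℝ)

theorem MEff.add {M N : List (Fin 4) → ST → ℝ} (h : MEff M) (g : MEff N) :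
    MEff (fun ds p => M ds p + N ds p) where
  diff := fun ds => (h.diff ds).add (g.diff ds)
  deriv := fun ds d p => by
    rw [fderiv_fun_add (h.diff ds p) (g.diff ds p)]
    simp [h.deriv, g.deriv]
  rc := h.rc.add g.rc
  bd := by
    obtain ⟨B, hB, h1⟩ := h.bd
    obtain ⟨C, hC, h2⟩ := g.bd
    refine ⟨fun k => B k + C k, nadd hB hC, fun k x => ?_⟩
    push_cast
    exact (abs_add_le _ _).trans (add_le_add (h1 k x) (h2 k x))

theorem MEff.neg {M : List (Fin 4) → ST → ℝ} (h : MEff M) :
    MEff (fun ds p => - M ds p) where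
  diff := fun ds => (h.diff ds).neg
  deriv := fun ds d p => by
    rw [fderiv_fun_neg]
    simp [h.deriv]
  rc := h.rc.neg
  bd := by
    obtain ⟨B, hB, h1⟩ := h.bd
    refine ⟨B, hB, fun k x => ?_⟩
    rw [abs_neg]; exact h1 k x

theorem MEff.zero : MEff (fun _ _ => 0) where
  diff := fun ds => differentiable_const _
  deriv := fun ds d p => by simp
  rc := (RC.of_rat (Computable.const 0)).of_eq fun a => by simp
  bd := ⟨fun _ => 0, Computable.const 0, fun k x => by simp⟩

theorem computable_count (i : Fin 4) : Computable (fun ds : List (Fin 4) => ds.count i) := by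
  have h1 : PrimrecPred (fun j : Fin 4 => j = i) := Primrec.eq.comp Primrec.id (Primrec.const i)
  have h2 := (Primrec.list_length.comp (Primrec.listFilter h1)).to_comp
  refine h2.of_eq fun ds => ?_
  rw [List.count_eq_length_filter]
  congr 1

theorem MEff.sep {D : Fin 4 → ℕ → ℝ → ℝ} (h : ∀ i, DEff (D i)) (m : Fin 4 → ℕ) :
    MEff (fun ds => sepD D (m + fun i => ds.count i)) where
  diff := fun ds => sepD_differentiable h _
  deriv := fun ds d p => by
    rw [sepD_fderiv h]
    congr 1
    funext i
    simp only [Pi.add_apply, List.count_cons]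
    by_cases hi : i = d
    · subst hi; simp; ring
    · have : (d == i) = false := by simpa using fun h => hi h.symm
      simp [Pi.single_eq_of_ne hi, this]
  rc := by
    unfold sepD
    refine RC.fin_prod _ fun i _ => ?_
    have hq : Computable (fun a : List (Fin 4) × (ℚ × (Fin 3 → ℚ)) =>
        if h : i = 0 then a.2.1 else a.2.2 (i.pred h)) := by
      by_cases hi : i = 0
      · simp only [hi, dite_true]
        exact Computable.fst.comp Computable.snd
      · simp only [hi, dite_false]
        have := (Computable.fin_app (σ := ℚ) (n := 3)).comp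
          (Computable.snd.comp (Computable.snd (α := List (Fin 4)) (β := ℚ × (Fin 3 → ℚ))))
          (Computable.const (i.pred hi))
        exact this
    have hc : Computable (fun a : List (Fin 4) × (ℚ × (Fin 3 → ℚ)) =>
        (m i + a.1.count i, (if h : i = 0 then a.2.1 else a.2.2 (i.pred h) : ℚ))) :=
      (nadd (Computable.const (m i)) ((computable_count i).comp Computable.fst)).pair hq
    refine ((h i).rc.comp hc).of_eq fun a => ?_
    dsimp only [Pi.add_apply]
    congr 1
    unfold coord
    by_cases hi : i = 0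
    · simp [hi]
    · simp [hi, ratPoint]
  bd := by
    choose B hB h1 using fun i => (h i).bd
    refine ⟨fun ds => B 0 (m 0 + ds.count 0) * B 1 (m 1 + ds.count 1) * B 2 (m 2 + ds.count 2) *
      B 3 (m 3 + ds.count 3), ?_, fun ds p => ?_⟩
    · have hh : ∀ i, Computable (fun ds : List (Fin 4) => B i (m i + ds.count i)) := fun i =>
        (hB i).comp (nadd (Computable.const (m i)) (computable_count i))
      exact nmul (nmul (nmul (hh 0) (hh 1)) (hh 2)) (hh 3)
    · unfold sepD
      rw [Finset.abs_prod]
      refine (Finset.prod_le_prod (fun i _ => abs_nonneg _) fun i _ => h1 i _ _).trans ?_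
      rw [Fin.prod_univ_four]
      push_cast
      exact le_refl _

theorem effective_of_MEff {U : Field} (M : Fin 3 → List (Fin 4) → ST → ℝ) (h : ∀ j, MEff (M j))
    (hU : ∀ p j, U p j = M j [] p) : Effective U := by
  have key : ∀ ds, mixedDeriv ds U = fun p j => M j ds p := by
    intro ds
    induction ds with
    | nil => funext p j; exact hU p j
    | cons d ds ih =>
      funext p
      simp only [mixedDeriv, ih]
      rw [fderiv_pi (fun j => (h j).diff ds p)]
      funext j
      simp [(h j).deriv]
  choose e he h1 using fun j => (h j).rc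
  choose B hB h2 using fun j => (h j).bd
  refine ⟨fun a j => e j ((a.1, a.2.1), a.2.2), fun ds => B 0 ds + B 1 ds + B 2 ds, ?_,
    nadd (nadd (hB 0) (hB 1)) (hB 2), ?_, ?_⟩
  · have h3 : ∀ j, Computable (fun a : List (Fin 4) × (ℚ × (Fin 3 → ℚ)) × ℕ =>
        e j ((a.1, a.2.1), a.2.2)) := fun j =>
      (he j).comp ((Computable.fst.pair (Computable.fst.comp Computable.snd)).pair
        (Computable.snd.comp Computable.snd))
    refine ((Primrec.vector_get' (α := ℚ) (n := 3)).to_comp.comp
      (Computable.vector_ofFn h3)).of_eq fun a => ?_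
    funext j
    simp
  · intro ds t q n j
    rw [key]
    exact h1 j (ds, (t, q)) n
  · intro ds p j
    rw [key]
    refine (h2 j ds p).trans ?_
    have h3 : B j ds ≤ B 0 ds + B 1 ds + B 2 ds := by
      fin_cases j <;> simp <;> omega
    exact_mod_cast h3

end Crest.Agent.BoxFlow
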