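import Mathlib
import Crest.Prelude.Def_BoxFlow
import Crest.Agent.BoxFlow.SepField

namespace Crest.Agent.BoxFlow

open scoped ContDiff
open Crest.AnalysisR.BoxFlow

/-- a plateau function with polynomial profile -/
theorem exists_profile (l r δ α β γ : ℚ) (hδ : 0 < δ) (hlr : l ≤ r) :
    ∃ D : ℕ → ℝ → ℝ, DEff D ∧
      (∀ k (x : ℝ), (x ≤ l - δ ∨ r + δ ≤ x) → D k x = 0) ∧
      (∀ x : ℝ, (l:ℝ) ≤ x → x ≤ r → D 0 x = γ + α * x + β / 2 * x ^ 2 ∧ D 1 x = α + β * x) := by
  have hδ' : (0:ℝ) < δ := by exact_mod_cast hδ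
  have hlr' : (l:ℝ) ≤ r := by exact_mod_cast hlr
  -- the plateau
  let A : ℚ := 8 / δ
  have h1 := DEff_DS.affine A (-(8 / δ) * l + 3)
  have h2 := (DEff_DS.affine A (-(8 / δ) * r - 3)).const_mul (-1)
  have h3 := h1.add h2
  obtain ⟨X, hX⟩ : ∃ X : ℕ → ℝ → ℝ, X = fun k x =>
    (A:ℝ) ^ k * DS k (A * x + ((-(8 / δ) * l + 3 : ℚ) : ℝ)) +
      ((-1 : ℚ) : ℝ) * ((A:ℝ) ^ k * DS k (A * x + ((-(8 / δ) * r - 3 : ℚ) : ℝ))) := ⟨_, rfl⟩
  have hXE : DEff X := by rw [hX]; exact h3
  have hX0 : ∀ x, X 0 x = stp (8 * (x - l) / δ + 3) - stp (8 * (x - r) / δ - 3) := by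
    intro x
    rw [hX]
    simp only [A, DS, ee, pc, pow_zero, Finset.range_zero, Finset.sum_empty, one_mul,
      Finset.range_one, Finset.sum_singleton]
    push_cast
    have e1 : (8:ℝ) / δ * x + (-(8 / δ) * l + 3) + (1 - 1 - 2 * 0) = 8 * (x - l) / δ + 3 := by ring
    have e2 : (8:ℝ) / δ * x + (-(8 / δ) * r - 3) + (1 - 1 - 2 * 0) = 8 * (x - r) / δ - 3 := by ring
    rw [e1, e2]
    ring
  have hXzero : ∀ k (x : ℝ), (x ≤ l - δ ∨ r + δ ≤ x) → X k x = 0 := by
    intro k x hx
    refine hXE.zero_of_zero (s := {x : ℝ | x < l - δ / 2 ∨ r + δ / 2 < x}) ?_ ?_ k x ?_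
    · exact (isOpen_lt continuous_id continuous_const).union
        (isOpen_lt continuous_const continuous_id)
    · intro y hy
      rw [hX0]
      rcases hy with hy | hy
      · have e1 : 8 * (y - l) / δ + 3 ≤ -1 := by
          have : 8 * (y - l) / δ ≤ -4 := by
            rw [div_le_iff₀ hδ']; linarith
          linarith
        have e2 : 8 * (y - r) / δ - 3 ≤ -1 := by
          have : 8 * (y - r) / δ ≤ 0 := by
            rw [div_le_iff₀ hδ']; linarith
          linarith
        rw [stp_left e1, stp_left e2, sub_zero]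
      · have e1 : 1 ≤ 8 * (y - l) / δ + 3 := by
          have : 0 ≤ 8 * (y - l) / δ := by
            rw [le_div_iff₀ hδ']; linarith
          linarith
        have e2 : 1 ≤ 8 * (y - r) / δ - 3 := by
          have : 4 ≤ 8 * (y - r) / δ := by
            rw [le_div_iff₀ hδ']; linarith
          linarith
        rw [stp_right e1, stp_right e2, sub_self]
    · rcases hx with hx | hx
      · left; linarith
      · right; linarith
  have hXone : ∀ x ∈ Set.Ioo ((l:ℝ) - δ / 4) (r + δ / 4), X 0 x = 1 := by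
    intro x hx
    rw [hX0]
    have e1 : 1 ≤ 8 * (x - l) / δ + 3 := by
      have : -2 ≤ 8 * (x - l) / δ := by
        rw [le_div_iff₀ hδ']; linarith [hx.1]
      linarith
    have e2 : 8 * (x - r) / δ - 3 ≤ -1 := by
      have : 8 * (x - r) / δ ≤ 2 := by
        rw [div_le_iff₀ hδ']; linarith [hx.2]
      linarith
    rw [stp_right e1, stp_left e2, sub_zero]
  have hX1 : ∀ x : ℝ, (l:ℝ) ≤ x → x ≤ r → X 0 x = 1 ∧ X 1 x = 0 := by
    intro x hl hr
    have hx : x ∈ Set.Ioo ((l:ℝ) - δ / 4) (r + δ / 4) := ⟨by linarith, by linarith⟩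
    refine ⟨hXone x hx, ?_⟩
    have h1 : X 0 =ᶠ[nhds x] fun _ => (1:ℝ) :=
      Filter.eventually_of_mem (isOpen_Ioo.mem_nhds hx) hXone
    exact (hXE.deriv 0 x).unique ((hasDerivAt_const x (1:ℝ)).congr_of_eventuallyEq h1)
  -- support radius
  obtain ⟨R, hR⟩ := exists_nat_ge (|(l:ℝ)| + |(r:ℝ)| + δ)
  have hRx : ∀ x : ℝ, (R:ℝ) < |x| → (x ≤ l - δ ∨ r + δ ≤ x) := by
    intro x hx
    by_contra hcon
    push Not at hcon
    have : |x| ≤ |(l:ℝ)| + |(r:ℝ)| + δ := by
      rw [abs_le]
      constructor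
      · linarith [neg_abs_le (l:ℝ), abs_nonneg (r:ℝ), hcon.1]
      · linarith [le_abs_self (r:ℝ), abs_nonneg (l:ℝ), hcon.2]
    linarith
  have hY := hXE.mul_x R fun x hx => hXzero 0 x (hRx x hx)
  obtain ⟨Y, hYdef⟩ : ∃ Y : ℕ → ℝ → ℝ, Y = fun k x => x * X k x + k * X (k - 1) x := ⟨_, rfl⟩
  have hYE : DEff Y := by rw [hYdef]; exact hY
  have hYzero : ∀ k (x : ℝ), (x ≤ l - δ ∨ r + δ ≤ x) → Y k x = 0 := by
    intro k x hx
    rw [hYdef]
    simp [hXzero _ x hx]
  have hZ := hYE.mul_x R fun x hx => hYzero 0 x (hRx x hx)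
  refine ⟨_, ((hXE.const_mul γ).add (hYE.const_mul α)).add (hZ.const_mul (β / 2)), ?_, ?_⟩
  · intro k x hx
    simp [hXzero _ x hx, hYzero _ x hx]
  · intro x hl hr
    obtain ⟨q0, q1⟩ := hX1 x hl hr
    have y0 : Y 0 x = x := by rw [hYdef]; simp [q0]
    have y1 : Y 1 x = 1 := by rw [hYdef]; simp [q0, q1]
    constructor
    · simp only [q0, y0]
      push_cast
      ring
    · simp only [q1, y1, y0, Nat.sub_self]
      push_cast
      ring

/-- good fields -/
structure GF (U : Field) (s0 s1 : ℚ) : Prop where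
  smooth : ContDiff ℝ ∞ U
  cpt : HasCompactSupport U
  eff : ∃ M : Fin 3 → List (Fin 4) → ST → ℝ, (∀ j, MEff (M j)) ∧ ∀ p j, U p j = M j [] p
  div : ∀ p, spaceDiv U p = 0
  time : ∀ p, (p.1 ≤ (s0:ℝ) ∨ (s1:ℝ) ≤ p.1) → U p = 0

/-- elementary move data -/
structure Elem where
  i : Fin 3
  k : Fin 3
  hik : i ≠ k
  c : Fin 3 → ℚ
  r : Fin 3 → ℚ
  hr : ∀ j, 0 ≤ r j
  δ : ℚ
  hδ : 0 < δ
  α : ℚ
  β : ℚ

abbrev E3 : Type := Fin 3 → ℝ

theorem exists_elem (e : Elem) (s0 s1 : ℚ) (h : s0 < s1) :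
    ∃ (U : Field) (G g : ℝ → ℝ), GF U s0 s1 ∧ (∀ t, HasDerivAt G (g t) t) ∧
      (∀ t ≤ (s0:ℝ), G t = 0) ∧ (∀ t, (s1:ℝ) ≤ t → G t = 1) ∧ (∀ t, 0 ≤ G t) ∧ (∀ t, G t ≤ 1) ∧
      (∀ t, (s1:ℝ) ≤ t → g t = 0) ∧
      (∀ t, ∀ x : E3, x ∈ box e.c e.r → U (t, x) = (g t * (e.α + e.β * x e.i)) • Pi.single e.k 1) ∧
      (∀ t, ∀ x : E3, (∃ j, (e.r j : ℝ) + e.δ ≤ |x j - e.c j|) → U (t, x) = 0) := by
  have h' : (s0:ℝ) < s1 := by exact_mod_cast h
  have hs : (0:ℝ) < s1 - s0 := by linarith
  choose D hD hD0 hD1 using fun j : Fin 3 => exists_profile (e.c j - e.r j) (e.c j + e.r j) e.δ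
    (if j = e.i then e.α else 0) (if j = e.i then e.β else 0) (if j = e.i then 0 else 1)
    e.hδ (by linarith [e.hr j])
  -- time profile
  let a : ℚ := 2 / (s1 - s0)
  let b : ℚ := -(2 / (s1 - s0)) * s0 - 1
  have hT := DEff_DS.affine a b
  obtain ⟨T, hTdef⟩ : ∃ T : ℕ → ℝ → ℝ, T = fun k x => (a:ℝ) ^ k * DS k (a * x + b) := ⟨_, rfl⟩
  have hTE : DEff T := by rw [hTdef]; exact hT
  have hT0 : ∀ t, T 0 t = stp (2 * (t - s0) / (s1 - s0) - 1) := by
    intro t
    rw [hTdef]
    simp only [a, b, DS, ee, pc, pow_zero, Finset.range_zero, Finset.sum_empty, one_mul,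
      Finset.range_one, Finset.sum_singleton]
    push_cast
    congr 1
    ring
  have hT1 : ∀ t, T 1 t = a * (stp (2 * (2 * (t - s0) / (s1 - s0) - 1) + 1) -
      stp (2 * (2 * (t - s0) / (s1 - s0) - 1) - 1)) := by
    intro t
    have h1 := hTE.deriv 0 t
    have h2 : HasDerivAt (fun t : ℝ => 2 * (t - s0) / (s1 - s0) - 1) (a : ℝ) t := by
      have h3 := ((((hasDerivAt_id t).sub_const (s0:ℝ)).const_mul 2).div_const
        ((s1:ℝ) - s0)).sub_const (1:ℝ)
      refine h3.congr_deriv ?_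
      simp only [a]
      push_cast
      ring
    have h3 := (stp_hasDerivAt (2 * (t - s0) / (s1 - s0) - 1)).comp t h2
    have h4 : T 0 = stp ∘ fun t : ℝ => 2 * (t - s0) / (s1 - s0) - 1 := funext hT0
    rw [h4] at h1
    rw [h1.unique h3, mul_comm]
  have hT1z : ∀ t, (t ≤ (s0:ℝ) ∨ (s1:ℝ) ≤ t) → T 1 t = 0 := by
    intro t ht
    rw [hT1]
    rcases ht with ht | ht
    · have e1 : 2 * (t - s0) / (s1 - s0) ≤ 0 := by
        rw [div_le_iff₀ hs]; linarith
      rw [stp_left (by linarith), stp_left (by linarith)]; simp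
    · have e1 : 2 ≤ 2 * (t - s0) / (s1 - s0) := by
        rw [le_div_iff₀ hs]; linarith
      rw [stp_right (by linarith), stp_right (by linarith)]; simp
  -- the four-tuple
  let Q : Fin 4 → ℕ → ℝ → ℝ := Fin.cons (fun k => T (k + 1)) D
  have hQ : ∀ i, DEff (Q i) := by
    intro i
    refine Fin.cases ?_ (fun j => ?_) i
    · exact hTE.shift
    · exact hD j
  let P : Fin 3 → ST → ℝ := fun j => sepD Q (Pi.single j.succ 1)
  have hPeq : ∀ (m : Fin 4 → ℕ) (p : ST), sepD Q m p =
      T (m 0 + 1) p.1 * (D 0 (m 1) (p.2 0) * D 1 (m 2) (p.2 1) * D 2 (m 3) (p.2 2)) := by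
    intro m p
    unfold sepD
    rw [Fin.prod_univ_succ, Fin.prod_univ_three, coord_zero, coord_succ, coord_succ, coord_succ]
    rfl
  have hPout : ∀ (m : Fin 4 → ℕ) (p : ST), (∃ j, (e.r j : ℝ) + e.δ ≤ |p.2 j - e.c j|) →
      sepD Q m p = 0 := by
    intro m p ⟨j, hj⟩
    unfold sepD
    apply Finset.prod_eq_zero (Finset.mem_univ j.succ)
    rw [coord_succ]
    apply hD0 j
    push_cast
    rcases le_abs.1 hj with hj | hj
    · right; linarith
    · left; linarith
  have hPtime : ∀ (m : Fin 4 → ℕ) (p : ST), m 0 = 0 → (p.1 ≤ (s0:ℝ) ∨ (s1:ℝ) ≤ p.1) →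
      sepD Q m p = 0 := by
    intro m p hm hp
    rw [hPeq, hm, hT1z _ hp, zero_mul]
  let U : Field := fun p => Pi.single e.k (P e.i p) - Pi.single e.i (P e.k p)
  have hUj : ∀ p j, U p j = (if j = e.k then P e.i p else 0) - (if j = e.i then P e.k p else 0) := by
    intro p j
    simp only [U, Pi.sub_apply]
    congr 1 <;> rw [Pi.single_apply]
  have hPsm : ∀ j, ContDiff ℝ ∞ (P j) := fun j => sepD_contDiff hQ _
  have hPdiff : ∀ j, Differentiable ℝ (P j) := fun j => sepD_differentiable hQ _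
  have hUsm : ContDiff ℝ ∞ U := by
    rw [contDiff_pi]
    intro j
    simp only [hUj]
    by_cases h1 : j = e.k
    · by_cases h2 : j = e.i
      · simp only [h1, if_true]; exact (hPsm _).sub (by split_ifs <;> [exact hPsm _; exact contDiff_const])
      · simp only [h1, if_true]; exact (hPsm _).sub (by split_ifs <;> [exact hPsm _; exact contDiff_const])
    · simp only [h1, if_false]; exact contDiff_const.sub (by split_ifs <;> [exact hPsm _; exact contDiff_const])
  refine ⟨U, T 0, T 1, ⟨hUsm, ?_, ?_, ?_, ?_⟩, hTE.deriv 0, ?_, ?_, ?_, ?_, ?_, ?_, ?_⟩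
  · -- compact support
    apply HasCompactSupport.intro (K := Set.Icc (s0:ℝ) s1 ×ˢ
      (Set.Icc (fun j => (e.c j : ℝ) - e.r j - e.δ) (fun j => (e.c j : ℝ) + e.r j + e.δ)))
    · exact isCompact_Icc.prod isCompact_Icc
    · intro p hp
      have : p.1 ∉ Set.Icc (s0:ℝ) s1 ∨ ∃ j, (e.r j : ℝ) + e.δ ≤ |p.2 j - e.c j| := by
        by_contra hcon
        push Not at hcon
        apply hp
        refine ⟨hcon.1, ?_, ?_⟩
        · intro j
          have := (abs_lt.1 (hcon.2 j)).1
          dsimp only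
          linarith
        · intro j
          have := (abs_lt.1 (hcon.2 j)).2
          dsimp only
          linarith
      rcases this with h1 | h1
      · have h2 : p.1 ≤ (s0:ℝ) ∨ (s1:ℝ) ≤ p.1 := by
          by_contra hcon
          push Not at hcon
          exact h1 ⟨hcon.1.le, hcon.2.le⟩
        funext j
        rw [hUj]
        simp only [P]
        rw [hPtime _ _ (by simp) h2, hPtime _ _ (by simp) h2]
        simp
      · funext j
        rw [hUj]
        simp only [P]
        rw [hPout _ _ h1, hPout _ _ h1]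
        simp
  · -- effectiveness
    have hsep : ∀ m, MEff (fun ds => sepD Q (m + fun i => ds.count i)) := MEff.sep hQ
    have hcnt : ∀ m : Fin 4 → ℕ, (m + fun i => List.count i ([] : List (Fin 4))) = m := by
      intro m; funext i; simp
    refine ⟨fun j ds p => (if j = e.k then sepD Q (Pi.single e.i.succ 1 + fun i => ds.count i) p
      else 0) + (if j = e.i then - sepD Q (Pi.single e.k.succ 1 + fun i => ds.count i) p else 0),
      fun j => ?_, fun p j => ?_⟩
    · refine MEff.add ?_ ?_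
      · by_cases h1 : j = e.k
        · simp only [h1, if_true]; exact hsep _
        · simp only [h1, if_false]; exact MEff.zero
      · by_cases h1 : j = e.i
        · simp only [h1, if_true]; exact (hsep _).neg
        · simp only [h1, if_false]; exact MEff.zero
    · rw [hUj]
      simp only [hcnt, P]
      by_cases h1 : j = e.i <;> simp [h1, sub_eq_add_neg]
  · -- divergence
    intro p
    unfold spaceDiv
    have hd : ∀ j v, fderiv ℝ U p v j = fderiv ℝ (fun q => U q j) p v := by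
      intro j v
      have h1 : HasFDerivAt U (fderiv ℝ U p) p :=
        (hUsm.differentiable (by simp) p).hasFDerivAt
      have h2 := (hasFDerivAt_pi'.1 h1 j).fderiv
      rw [h2]; rfl
    have hdir : ∀ j : Fin 3, ((0:ℝ), (Pi.single j 1 : Fin 3 → ℝ)) = direction j.succ := by
      intro j
      simp [direction]
    have hcomp : ∀ j : Fin 3, fderiv ℝ U p (0, Pi.single j 1) j =
        (if j = e.k then sepD Q (Pi.single e.i.succ 1 + Pi.single e.k.succ 1) p else 0) -
        (if j = e.i then sepD Q (Pi.single e.i.succ 1 + Pi.single e.k.succ 1) p else 0) := by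
      intro j
      rw [hd, hdir]
      simp only [hUj]
      by_cases h1 : j = e.k
      · have h2 : ¬ j = e.i := fun h => e.hik (h.symm.trans h1)
        simp only [h1, if_true]
        have h3 : ¬ e.k = e.i := fun h => e.hik h.symm
        simp only [h3, if_false, sub_zero]
        exact sepD_fderiv hQ _ _ _
      · by_cases h2 : j = e.i
        · simp only [h2, if_true, e.hik, if_false, zero_sub]
          rw [fderiv_fun_neg]
          have := sepD_fderiv hQ (Pi.single e.k.succ 1) p e.i.succ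
          rw [add_comm] at this
          simp only [P]
          rw [neg_apply, this]
        · simp [h1, h2]
    rw [Finset.sum_congr rfl fun j _ => hcomp j, Finset.sum_sub_distrib]
    simp
  · -- time
    intro p hp
    funext j
    rw [hUj]
    simp only [P]
    rw [hPtime _ _ (by simp) hp, hPtime _ _ (by simp) hp]
    simp
  · intro t ht
    rw [hT0]
    apply stp_left
    have e1 : 2 * (t - s0) / (s1 - s0) ≤ 0 := by
      rw [div_le_iff₀ hs]; linarith
    linarith
  · intro t ht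
    rw [hT0]
    apply stp_right
    have e1 : 2 ≤ 2 * (t - s0) / (s1 - s0) := by
      rw [le_div_iff₀ hs]; linarith
    linarith
  · intro t; rw [hT0]; exact stp_nonneg _
  · intro t; rw [hT0]; exact stp_le_one _
  · intro t ht; exact hT1z t (Or.inr ht)
  · -- inside
    intro t x hx
    have hin : ∀ j, ((e.c j - e.r j : ℚ) : ℝ) ≤ x j ∧ x j ≤ ((e.c j + e.r j : ℚ) : ℝ) := by
      intro j
      have := abs_le.1 (hx j)
      push_cast
      constructor <;> linarith [this.1, this.2]
    have hv : ∀ j, D j 0 (x j) = (if j = e.i then e.α * x j + e.β / 2 * x j ^ 2 else 1) ∧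
        D j 1 (x j) = (if j = e.i then e.α + e.β * x j else 0) := by
      intro j
      obtain ⟨q0, q1⟩ := hD1 j (x j) (hin j).1 (hin j).2
      rw [q0, q1]
      by_cases h1 : j = e.i <;> simp [h1]
    have hPi : P e.i (t, x) = T 1 t * (e.α + e.β * x e.i) := by
      simp only [P]
      rw [hPeq]
      have key : ∀ j : Fin 3, D j ((Pi.single e.i.succ 1 : Fin 4 → ℕ) j.succ) (x j) =
          if j = e.i then e.α + e.β * x e.i else 1 := by
        intro j
        by_cases h1 : j = e.i
        · rw [if_pos h1, h1, Pi.single_eq_same, (hv e.i).2, if_pos rfl]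
        · rw [if_neg h1, Pi.single_eq_of_ne (by simpa using h1), (hv j).1, if_neg h1]
      have k0 := key 0
      have k1 := key 1
      have k2 := key 2
      simp only [Fin.succ_zero_eq_one, Fin.succ_one_eq_two] at k0 k1 k2
      have e3 : (Fin.succ 2 : Fin 4) = 3 := rfl
      rw [e3] at k2
      dsimp only
      rw [k0, k1, k2, Pi.single_eq_of_ne (by simpa using (Fin.succ_ne_zero e.i).symm)]
      have hi : e.i = 0 ∨ e.i = 1 ∨ e.i = 2 := by
        have := e.i.isLt
        generalize e.i = z at *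
        fin_cases z <;> simp
      rcases hi with hi | hi | hi <;> rw [hi] <;> simp
    have hPk : P e.k (t, x) = 0 := by
      simp only [P]
      unfold sepD
      apply Finset.prod_eq_zero (Finset.mem_univ e.k.succ)
      rw [coord_succ, Pi.single_eq_same]
      change D e.k 1 (x e.k) = 0
      rw [(hv e.k).2, if_neg (fun h => e.hik h.symm)]
    simp only [U]
    rw [hPi, hPk]
    funext j
    simp [Pi.single_apply]
  · intro t x hx
    funext j
    rw [hUj]
    simp only [P]
    rw [hPout _ (t, x) hx, hPout _ (t, x) hx]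
    simp

end Crest.Agent.BoxFlow
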