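import Mathlib
import Crest.Prelude.Def_BoxFlow
import Crest.Agent.BoxFlow.Elem

namespace Crest.Agent.BoxFlow

open scoped ContDiff NNReal
open Crest.AnalysisR.BoxFlow

theorem exists_lip {U : Field} (h : ContDiff ℝ ∞ U) (hc : HasCompactSupport U) :
    ∃ K : ℝ≥0, ∀ t, LipschitzWith K (fun x : E3 => U (t, x)) := by
  obtain ⟨K, hK⟩ := h.lipschitzWith_of_hasCompactSupport hc (by simp)
  refine ⟨K, fun t => ?_⟩
  have := hK.comp (LipschitzWith.prodMk_left (α := ℝ) (β := E3) t)
  rw [mul_one] at this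
  exact this

theorem exists_traj {U : Field} (h : ContDiff ℝ ∞ U) (hc : HasCompactSupport U)
    (ht : ∀ p, (p.1 ≤ (1 / 4 : ℝ) ∨ (3 / 4 : ℝ) ≤ p.1) → U p = 0) (x : E3) :
    ∃ γ : ℝ → E3, γ 0 = x ∧ ∀ t, HasDerivAt γ (U (t, γ t)) t := by
  obtain ⟨K, hK⟩ := exists_lip h hc
  obtain ⟨C, hC⟩ := hc.exists_bound_of_continuous h.continuous
  have hC0 : 0 ≤ C := (norm_nonneg _).trans (hC 0)
  let L : ℝ≥0 := ⟨C, hC0⟩
  have hPL : IsPicardLindelof (fun t x => U (t, x)) (tmin := 0) (tmax := 1)
      ⟨0, by norm_num, by norm_num⟩ x L 0 L K :=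
    { lipschitzOnWith := fun t _ => (hK t).lipschitzOnWith
      continuousOn := fun y _ => (h.continuous.comp (by fun_prop)).continuousOn
      norm_le := fun t _ y _ => hC _
      mul_max_le := by simp }
  obtain ⟨α, hα0, hα⟩ := hPL.exists_eq_forall_mem_Icc_hasDerivWithinAt₀
  have hcont : ContinuousOn α (Set.Icc 0 1) := fun t ht => (hα t ht).continuousWithinAt
  have hin : ∀ t ∈ Set.Ioo (0:ℝ) 1, HasDerivAt α (U (t, α t)) t := fun t ht =>
    (hα t (Set.Ioo_subset_Icc_self ht)).hasDerivAt (Icc_mem_nhds ht.1 ht.2)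
  have hright : ∀ t ∈ Set.Ico (0:ℝ) 1, HasDerivWithinAt α (U (t, α t)) (Set.Ici t) t := by
    intro t ht
    refine (hα t ⟨ht.1, ht.2.le⟩).mono_of_mem_nhdsWithin ?_
    exact Filter.mem_of_superset (Icc_mem_nhdsGE ht.2) (Set.Icc_subset_Icc_left ht.1)
  have hl : ∀ s ∈ Set.Icc (0:ℝ) (1 / 4), α s = α 0 := by
    apply constant_of_has_deriv_right_zero
    · exact hcont.mono (Set.Icc_subset_Icc_right (by norm_num))
    · intro s hs
      have := hright s ⟨hs.1, by linarith [hs.2]⟩
      rwa [ht (s, α s) (Or.inl hs.2.le)] at this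
  have hr : ∀ s ∈ Set.Icc (3 / 4 : ℝ) 1, α s = α (3 / 4) := by
    apply constant_of_has_deriv_right_zero
    · exact hcont.mono (Set.Icc_subset_Icc_left (by norm_num))
    · intro s hs
      have := hright s ⟨by linarith [hs.1], hs.2⟩
      rwa [ht (s, α s) (Or.inr hs.1)] at this
  refine ⟨fun t => α (max 0 (min 1 t)), by simpa using hα0, fun t => ?_⟩
  rcases lt_or_ge t (1 / 4) with h1 | h1
  · have e1 : (fun t => α (max 0 (min 1 t))) =ᶠ[nhds t] fun _ => α 0 := by
      refine Filter.eventually_of_mem (Iio_mem_nhds h1) fun s hs => ?_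
      have hs' : s < 1 / 4 := hs
      exact hl _ ⟨le_max_left _ _, max_le (by norm_num) ((min_le_right _ _).trans hs'.le)⟩
    rw [ht (t, _) (Or.inl h1.le)]
    exact (hasDerivAt_const t (α 0)).congr_of_eventuallyEq e1
  · rcases lt_or_ge (3 / 4) t with h2 | h2
    · have e1 : (fun t => α (max 0 (min 1 t))) =ᶠ[nhds t] fun _ => α (3 / 4) := by
        refine Filter.eventually_of_mem (Ioi_mem_nhds h2) fun s hs => ?_
        have hs' : 3 / 4 < s := hs
        exact hr _ ⟨le_max_of_le_right (le_min (by norm_num) hs'.le),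
          max_le (by norm_num) (min_le_left _ _)⟩
      rw [ht (t, _) (Or.inr h2.le)]
      exact (hasDerivAt_const t (α (3 / 4))).congr_of_eventuallyEq e1
    · have e1 : (fun t => α (max 0 (min 1 t))) =ᶠ[nhds t] α := by
        refine Filter.eventually_of_mem (Ioo_mem_nhds (a := 0) (b := 1) (by linarith)
          (by linarith)) fun s hs => ?_
        dsimp only
        rw [min_eq_right hs.2.le, max_eq_right hs.1.le]
      have e2 : max 0 (min 1 t) = t := by
        rw [min_eq_right (by linarith), max_eq_right (by linarith)]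
      dsimp only
      rw [e2]
      exact (hin t ⟨by linarith, by linarith⟩).congr_of_eventuallyEq e1

theorem traj_unique {U : Field} (h : ContDiff ℝ ∞ U) (hc : HasCompactSupport U)
    {γ γ' : ℝ → E3} (h0 : γ 0 = γ' 0) (h1 : ∀ t, HasDerivAt γ (U (t, γ t)) t)
    (h2 : ∀ t, HasDerivAt γ' (U (t, γ' t)) t) : γ = γ' := by
  obtain ⟨K, hK⟩ := exists_lip h hc
  exact ODE_solution_unique_univ (v := fun t x => U (t, x)) (s := fun _ => Set.univ) (K := K)
    (t₀ := 0) (fun t => (hK t).lipschitzOnWith) (fun t => ⟨h1 t, trivial⟩)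
    (fun t => ⟨h2 t, trivial⟩) h0

/-! ### assembling elementary moves -/

def Elem.step (e : Elem) (y y' : E3) : Prop :=
  (y ∈ box e.c e.r ∧ y' ∈ box e.c e.r ∧ y' = y + ((e.α : ℝ) + e.β * y e.i) • Pi.single e.k 1) ∨
  ((∃ j, (e.r j : ℝ) + e.δ ≤ |y j - e.c j|) ∧ y' = y)

def Chain : List Elem → E3 → E3 → Prop
  | [], y, y' => y' = y
  | e :: L, y, y' => ∃ z, e.step y z ∧ Chain L z y'

theorem Chain.append {L L' : List Elem} {x y z : E3} (h : Chain L x y) (h' : Chain L' y z) :
    Chain (L ++ L') x z := by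
  induction L generalizing x with
  | nil =>
    have : y = x := h
    subst this
    exact h'
  | cons e L ih =>
    obtain ⟨w, hw, hc⟩ := h
    exact ⟨w, hw, ih hc⟩

theorem GF.zero (s0 s1 : ℚ) : GF (fun _ => 0) s0 s1 where
  smooth := contDiff_const
  cpt := HasCompactSupport.zero
  eff := ⟨fun _ _ _ => 0, fun _ => MEff.zero, fun _ _ => rfl⟩
  div := fun p => by simp [spaceDiv]
  time := fun _ _ => rfl

theorem GF.add {U V : Field} {s0 m s1 : ℚ} (hU : GF U s0 m) (hV : GF V m s1) (h1 : s0 ≤ m)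
    (h2 : m ≤ s1) : GF (fun p => U p + V p) s0 s1 where
  smooth := hU.smooth.add hV.smooth
  cpt := hU.cpt.add hV.cpt
  eff := by
    obtain ⟨M, hM, e1⟩ := hU.eff
    obtain ⟨N, hN, e2⟩ := hV.eff
    exact ⟨fun j ds p => M j ds p + N j ds p, fun j => (hM j).add (hN j), fun p j => by
      rw [Pi.add_apply, e1, e2]⟩
  div := fun p => by
    have h1 := hU.div p
    have h2 := hV.div p
    unfold spaceDiv at *
    rw [fderiv_fun_add (hU.smooth.differentiable (by simp) p)
      (hV.smooth.differentiable (by simp) p)]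
    simp only [add_apply, Pi.add_apply]
    rw [Finset.sum_add_distrib, h1, h2, add_zero]
  time := fun p hp => by
    have h1' : (s0:ℝ) ≤ m := by exact_mod_cast h1
    have h2' : (m:ℝ) ≤ s1 := by exact_mod_cast h2
    rw [hU.time p (by rcases hp with hp | hp; exact Or.inl hp; exact Or.inr (by linarith)),
      hV.time p (by rcases hp with hp | hp; exact Or.inl (by linarith); exact Or.inr hp), add_zero]

theorem assemble (L : List Elem) (s0 s1 : ℚ) (h : s0 < s1) :
    ∃ U : Field, GF U s0 s1 ∧ ∀ y y' : E3, Chain L y y' → ∃ γ : ℝ → E3,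
      (∀ t ≤ (s0:ℝ), γ t = y) ∧ (∀ t, (s1:ℝ) ≤ t → γ t = y') ∧
      ∀ t, HasDerivAt γ (U (t, γ t)) t := by
  induction L generalizing s0 s1 with
  | nil =>
    refine ⟨fun _ => 0, GF.zero _ _, fun y y' hy => ?_⟩
    have : y' = y := hy
    subst this
    exact ⟨fun _ => y', fun _ _ => rfl, fun _ _ => rfl, fun t => hasDerivAt_const _ _⟩
  | cons e L ih =>
    obtain ⟨m, hm0, hm1⟩ : ∃ m : ℚ, s0 < m ∧ m < s1 := exists_between h
    obtain ⟨V, hV, hVc⟩ := ih m s1 hm1
    obtain ⟨W, G, g, hW, hG, hG0, hG1, hGn, hGl, hg1, hWin, hWout⟩ := exists_elem e s0 m hm0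
    have hm1' : (m:ℝ) < s1 := by exact_mod_cast hm1
    have hm0' : (s0:ℝ) < m := by exact_mod_cast hm0
    refine ⟨fun p => W p + V p, GF.add hW hV hm0.le hm1.le, fun y y' hc => ?_⟩
    obtain ⟨z, hz, hc⟩ := hc
    obtain ⟨γ, hγ0, hγ1, hγ⟩ := hVc z y' hc
    refine ⟨fun t => γ t + (G t - 1) • (z - y), ?_, ?_, ?_⟩
    · intro t ht
      dsimp only
      rw [hγ0 t (by linarith), hG0 t ht]
      module
    · intro t ht
      dsimp only
      rw [hγ1 t ht, hG1 t (by linarith)]
      module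
    · intro t
      have hd : HasDerivAt (fun t => γ t + (G t - 1) • (z - y))
          (V (t, γ t) + g t • (z - y)) t :=
        (hγ t).add (((hG t).sub_const 1).smul_const (z - y))
      refine hd.congr_deriv ?_
      dsimp only
      rcases le_total t m with htm | htm
      · rw [hV.time (t, γ t) (Or.inl htm), hV.time (t, _) (Or.inl htm), hγ0 t htm, zero_add,
          add_zero]
        have hpos : z + (G t - 1) • (z - y) = y + G t • (z - y) := by module
        rw [hpos]
        rcases hz with ⟨hy, hz, he⟩ | ⟨hout, he⟩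
        · have hzy : z - y = ((e.α : ℝ) + e.β * y e.i) • Pi.single e.k 1 := by
            rw [he]; simp
          have hmem : y + G t • (z - y) ∈ box e.c e.r := by
            intro j
            have h1 := abs_le.1 (hy j)
            have h2 := abs_le.1 (hz j)
            have h3 : (y + G t • (z - y)) j - e.c j =
                (1 - G t) * (y j - e.c j) + G t * (z j - e.c j) := by
              simp only [Pi.add_apply, Pi.smul_apply, Pi.sub_apply, smul_eq_mul]; ring
            rw [h3, abs_le]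
            have g0 := hGn t
            have g1 := hGl t
            constructor <;> nlinarith [h1.1, h1.2, h2.1, h2.2]
          rw [hWin t _ hmem]
          have hi : (y + G t • (z - y)) e.i = y e.i := by
            rw [hzy]
            simp [Pi.single_eq_of_ne e.hik]
          rw [hi, hzy, smul_smul]
        · subst he
          rw [sub_self, smul_zero, smul_zero, add_zero, hWout t z hout]
      · rw [hG1 t htm, hg1 t htm, sub_self, zero_smul, add_zero, add_zero,
          hW.time (t, γ t) (Or.inr htm), zero_add]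

/-- final assembly -/
theorem realize (L : List Elem) : ∃ (U : Field) (Φ : ℝ → E3 → E3),
      ContDiff ℝ ∞ U ∧ HasCompactSupport U ∧ Effective U ∧
      (∀ p : ℝ × (Fin 3 → ℝ), p.1 ∉ Set.Icc (1 / 4 : ℝ) (3 / 4) → U p = 0) ∧
      (∀ p : ℝ × (Fin 3 → ℝ), spaceDiv U p = 0) ∧ IsFlow U Φ ∧
      ∀ y y', Chain L y y' → Φ 1 y = y' := by
  obtain ⟨U, hU, hc⟩ := assemble L (1 / 4) (3 / 4) (by norm_num)
  have htime : ∀ p, (p.1 ≤ (1 / 4 : ℝ) ∨ (3 / 4 : ℝ) ≤ p.1) → U p = 0 := by
    intro p hp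
    apply hU.time
    push_cast
    exact hp
  choose Φ hΦ0 hΦ using exists_traj hU.smooth hU.cpt htime
  refine ⟨U, fun t x => Φ x t, hU.smooth, hU.cpt, ?_, ?_, hU.div, ⟨hΦ0, fun t x => hΦ x t⟩, ?_⟩
  · obtain ⟨M, hM, e⟩ := hU.eff
    exact effective_of_MEff M hM e
  · intro p hp
    apply htime
    by_contra hcon
    push Not at hcon
    exact hp ⟨hcon.1.le, hcon.2.le⟩
  · intro y y' hch
    obtain ⟨γ, h0, h1, h2⟩ := hc y y' hch
    have e1 : γ 0 = y := h0 0 (by norm_num)
    have e2 : γ 1 = y' := h1 1 (by norm_num)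
    have e3 : Φ y = γ := traj_unique hU.smooth hU.cpt (by rw [hΦ0, e1]) (hΦ y) h2
    dsimp only
    rw [e3, e2]

end Crest.Agent.BoxFlow
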