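import Mathlib
import Crest.Prelude.Def_BoxFlow
import Crest.Agent.BoxFlow.Flow

namespace Crest.Agent.BoxFlow

open Crest.AnalysisR.BoxFlow

variable {n : ℕ}

/-- standard affine map between boxes -/
noncomputable def stdm (c l c' l' : Fin 3 → ℚ) (x : E3) : E3 :=
  fun j => (c' j : ℝ) + ((l' j / l j : ℚ) : ℝ) * (x j - c j)

def R (c l c' l' : Fin n → Fin 3 → ℚ) : Prop :=
  ∃ L : List Elem, ∀ i, ∀ x ∈ box (c i) (l i), Chain L x (stdm (c i) (l i) (c' i) (l' i) x)

def Pos (l : Fin n → Fin 3 → ℚ) : Prop := ∀ i j, 0 < l i j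

theorem stdm_self {c l : Fin 3 → ℚ} (hl : ∀ j, 0 < l j) (x : E3) : stdm c l c l x = x := by
  funext j
  unfold stdm
  rw [div_self (hl j).ne']
  push_cast
  ring

theorem stdm_mem {c l c' l' : Fin 3 → ℚ} (hl : ∀ j, 0 < l j) (hl' : ∀ j, 0 < l' j) {x : E3}
    (hx : x ∈ box c l) : stdm c l c' l' x ∈ box c' l' := by
  intro j
  have h1 : (0:ℝ) < l j := by exact_mod_cast hl j
  have h2 : (0:ℝ) < l' j := by exact_mod_cast hl' j
  unfold stdm
  rw [add_sub_cancel_left]
  push_cast
  rw [abs_mul, abs_of_pos (div_pos h2 h1)]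
  have := mul_le_mul_of_nonneg_left (hx j) (div_pos h2 h1).le
  rwa [div_mul_cancel₀ _ h1.ne'] at this

theorem stdm_comp {c l c' l' c'' l'' : Fin 3 → ℚ} (hl' : ∀ j, 0 < l' j)
    (x : E3) : stdm c' l' c'' l'' (stdm c l c' l' x) = stdm c l c'' l'' x := by
  funext j
  have h2 : (l' j:ℝ) ≠ 0 := by exact_mod_cast (hl' j).ne'
  unfold stdm
  push_cast
  rw [add_sub_cancel_left, ← mul_assoc, div_mul_div_cancel₀ h2]

theorem R.refl (c l : Fin n → Fin 3 → ℚ) (hl : Pos l) : R c l c l :=
  ⟨[], fun i x _ => stdm_self (hl i) x⟩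

theorem R.trans {c l c' l' c'' l'' : Fin n → Fin 3 → ℚ} (hl : Pos l) (hl' : Pos l')
    (h : R c l c' l') (h' : R c' l' c'' l'') : R c l c'' l'' := by
  obtain ⟨L, hL⟩ := h
  obtain ⟨L', hL'⟩ := h'
  refine ⟨L ++ L', fun i x hx => ?_⟩
  have h1 := hL' i _ (stdm_mem (hl i) (hl' i) hx)
  rw [stdm_comp (hl' i)] at h1
  exact (hL i x hx).append h1

theorem exists_uniform {ι : Type*} [Finite ι] (P : ι → ℚ → Prop)
    (h : ∀ i, ∃ δ > 0, ∀ δ' > 0, δ' ≤ δ → P i δ') : ∃ δ > 0, ∀ i, P i δ := by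
  choose δ hδ hP using h
  cases nonempty_fintype ι
  rcases isEmpty_or_nonempty ι with he | he
  · exact ⟨1, one_pos, fun i => he.elim i⟩
  · obtain ⟨i0, h0⟩ := Finite.exists_min δ
    exact ⟨δ i0, hδ i0, fun i => hP i _ (hδ i0) (h0 i)⟩

theorem R.T (c l : Fin n → Fin 3 → ℚ) (hl : Pos l) (i0 : Fin n) (k : Fin 3) (v : ℚ)
    (h : ∀ i', i' ≠ i0 → ∃ j, l i0 j + l i' j + |v| < |c i0 j - c i' j|) :
    R c l (Function.update c i0 (Function.update (c i0) k (c i0 k + v))) l := by
  obtain ⟨δ, hδ, hd⟩ := exists_uniform (fun (i' : Fin n) δ => i' ≠ i0 →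
      ∃ j, l i0 j + l i' j + |v| + δ ≤ |c i0 j - c i' j|) (fun i' => by
    by_cases hi : i' = i0
    · exact ⟨1, one_pos, fun _ _ _ h => absurd hi h⟩
    · obtain ⟨j, hj⟩ := h i' hi
      exact ⟨|c i0 j - c i' j| - (l i0 j + l i' j + |v|), by linarith,
        fun δ' _ h2 _ => ⟨j, by linarith⟩⟩)
  have hk : k + 1 ≠ k := by fin_cases k <;> decide
  let e : Elem := ⟨k + 1, k, hk, c i0, fun j => l i0 j + |v|,
    fun j => by have := hl i0 j; have := abs_nonneg v; linarith, δ, hδ, v, 0⟩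
  refine ⟨[e], fun i x hx => ?_⟩
  refine ⟨_, ?_, rfl⟩
  by_cases hi : i = i0
  · subst hi
    left
    rw [Function.update_self]
    have hv : |(v:ℝ)| = ((|v| : ℚ) : ℝ) := by push_cast; rfl
    have e1 : stdm (c i) (l i) (Function.update (c i) k (c i k + v)) (l i) x =
        x + ((e.α : ℝ) + e.β * x e.i) • Pi.single e.k 1 := by
      funext j
      unfold stdm
      rw [div_self (hl i j).ne']
      simp only [e, Pi.add_apply, Pi.smul_apply, smul_eq_mul]
      push_cast
      by_cases hj : j = k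
      · subst hj
        rw [Function.update_self, Pi.single_eq_same]
        push_cast
        ring
      · rw [Function.update_of_ne hj, Pi.single_eq_of_ne hj]
        ring
    refine ⟨?_, ?_, e1⟩
    · intro j
      simp only [e]
      push_cast
      linarith [hx j, abs_nonneg (v:ℝ)]
    · rw [e1]
      intro j
      simp only [e, Pi.add_apply, Pi.smul_apply, smul_eq_mul]
      push_cast
      rw [zero_mul, add_zero]
      have h1 : |(v:ℝ) * (Pi.single k 1 : Fin 3 → ℝ) j| ≤ |(v:ℝ)| := by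
        by_cases hj : j = k
        · subst hj; rw [Pi.single_eq_same, mul_one]
        · rw [Pi.single_eq_of_ne hj, mul_zero, abs_zero]; exact abs_nonneg _
      have h2 : x j + (v:ℝ) * (Pi.single k 1 : Fin 3 → ℝ) j - c i j =
        (x j - c i j) + (v:ℝ) * (Pi.single k 1 : Fin 3 → ℝ) j := by ring
      rw [h2]
      refine (abs_add_le _ _).trans ?_
      linarith [hx j]
  · right
    rw [Function.update_of_ne hi, stdm_self (hl i)]
    refine ⟨?_, rfl⟩
    obtain ⟨j, hj⟩ := hd i hi
    refine ⟨j, ?_⟩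
    simp only [e]
    have h1 := hx j
    have h2 : ((l i0 j + l i j + |v| + δ : ℚ) : ℝ) ≤ ((|c i0 j - c i j| : ℚ) : ℝ) := by
      exact_mod_cast hj
    push_cast at h2 ⊢
    have h3 := abs_sub_abs_le_abs_sub ((c i0 j : ℝ) - c i j) (x j - c i j)
    have h4 : |(c i0 j : ℝ) - c i j - (x j - c i j)| = |x j - c i0 j| := by
      rw [← abs_neg]; congr 1; ring
    rw [h4] at h3
    linarith

theorem R.small (c c' l : Fin n → Fin 3 → ℚ) (hl : Pos l) (ε : ℚ)
    (hε : ∀ i j, |c' i j - c i j| ≤ ε)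
    (h : ∀ i i', i ≠ i' → ∃ j, l i j + l i' j + 3 * ε < |c i j - c i' j|) : R c l c' l := by
  classical
  let cs : Finset (Fin n × Fin 3) → Fin n → Fin 3 → ℚ := fun s i j =>
    if (i, j) ∈ s then c' i j else c i j
  have key : ∀ s, R c l (cs s) l := by
    intro s
    induction s using Finset.induction_on with
    | empty =>
      have : cs ∅ = c := by funext i j; simp [cs]
      rw [this]; exact R.refl c l hl
    | insert p s hp ih =>
      obtain ⟨i0, j0⟩ := p
      refine R.trans hl hl ih ?_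
      have e1 : cs (insert (i0, j0) s) = Function.update (cs s) i0
          (Function.update (cs s i0) j0 (cs s i0 j0 + (c' i0 j0 - c i0 j0))) := by
        funext i j
        by_cases hi : i = i0
        · subst hi
          rw [Function.update_self]
          by_cases hj : j = j0
          · subst hj
            rw [Function.update_self]
            simp [cs, hp]
          · rw [Function.update_of_ne hj]
            simp [cs, hj]
        · rw [Function.update_of_ne hi]
          simp [cs, hi]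
      rw [e1]
      apply R.T _ _ hl
      intro i' hi'
      obtain ⟨j, hj⟩ := h i0 i' hi'.symm
      refine ⟨j, ?_⟩
      have hcs : ∀ i j, |cs s i j - c i j| ≤ ε := by
        intro i j
        simp only [cs]
        split_ifs
        · exact hε i j
        · rw [sub_self, abs_zero]; exact (abs_nonneg _).trans (hε i j)
      have h1 := hcs i0 j
      have h2 := hcs i' j
      have h3 := hε i0 j0
      have h4 : |c i0 j - c i' j| ≤ |cs s i0 j - cs s i' j| + |cs s i0 j - c i0 j| +
          |cs s i' j - c i' j| := by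
        have := abs_add_three (cs s i0 j - cs s i' j) (-(cs s i0 j - c i0 j)) (cs s i' j - c i' j)
        rw [abs_neg] at this
        rwa [show cs s i0 j - cs s i' j + -(cs s i0 j - c i0 j) + (cs s i' j - c i' j) =
          c i0 j - c i' j by ring] at this
      linarith
  have := key Finset.univ
  have e : cs Finset.univ = c' := by funext i j; simp [cs]
  rwa [e] at this

theorem R.linear (c c' l : Fin n → Fin 3 → ℚ) (hl : Pos l) (γ : ℚ) (hγ : 0 < γ)
    (h : ∀ s : ℚ, 0 ≤ s → s ≤ 1 → ∀ i i', i ≠ i' → ∃ j,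
      l i j + l i' j + γ ≤ |(1 - s) * (c i j - c i' j) + s * (c' i j - c' i' j)|) : R c l c' l := by
  obtain ⟨D, hD0, hD⟩ : ∃ D : ℚ, 0 ≤ D ∧ ∀ i j, |c' i j - c i j| ≤ D := by
    refine ⟨∑ i, ∑ j, |c' i j - c i j|, by positivity, fun i j => ?_⟩
    calc |c' i j - c i j| ≤ ∑ j, |c' i j - c i j| :=
          Finset.single_le_sum (f := fun j => |c' i j - c i j|) (fun _ _ => abs_nonneg _)
            (Finset.mem_univ j)
      _ ≤ _ := Finset.single_le_sum (f := fun i => ∑ j, |c' i j - c i j|)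
            (fun _ _ => Finset.sum_nonneg fun _ _ => abs_nonneg _) (Finset.mem_univ i)
  obtain ⟨N, hN⟩ := exists_nat_gt (3 * D / γ)
  have hN0 : (0:ℚ) < N := lt_of_le_of_lt (by positivity) hN
  have hN1 : 3 * (D / N) < γ := by
    rw [div_lt_iff₀ hγ] at hN
    rw [← mul_div_assoc, div_lt_iff₀ hN0]
    linarith
  let cm : ℕ → Fin n → Fin 3 → ℚ := fun m i j => c i j + (m / N) * (c' i j - c i j)
  have key : ∀ m : ℕ, m ≤ N → R c l (cm m) l := by
    intro m
    induction m with
    | zero =>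
      intro _
      have : cm 0 = c := by funext i j; simp [cm]
      rw [this]; exact R.refl c l hl
    | succ m ih =>
      intro hm
      refine R.trans hl hl (ih (by omega)) ?_
      apply R.small _ _ _ hl (D / N)
      · intro i j
        have : cm (m + 1) i j - cm m i j = (1 / N) * (c' i j - c i j) := by
          simp only [cm]; push_cast; field_simp; ring
        rw [this, abs_mul, abs_of_pos (by positivity), one_div, inv_mul_eq_div]
        exact div_le_div_of_nonneg_right (hD i j) hN0.le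
      · intro i i' hi
        obtain ⟨j, hj⟩ := h (m / N) (by positivity) (by
          rw [div_le_one hN0]; exact_mod_cast (by omega : m ≤ N)) i i' hi
        refine ⟨j, ?_⟩
        have : cm m i j - cm m i' j =
            (1 - (m:ℚ) / N) * (c i j - c i' j) + (m / N) * (c' i j - c' i' j) := by
          simp only [cm]; ring
        rw [this]
        linarith
  have := key N le_rfl
  have e : cm N = c' := by
    funext i j; simp only [cm]; rw [div_self hN0.ne']; ring
  rwa [e] at this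

/-! ### reshaping -/

def Far (ρ : ℚ) (c : Fin n → Fin 3 → ℚ) : Prop := ∀ i i', i ≠ i' → ∃ j, ρ ≤ |c i j - c i' j|

def Resh (l l' : Fin n → Fin 3 → ℚ) : Prop := ∃ ρ, ∀ c, Far ρ c → R c l c l'

theorem Far.mono {ρ ρ' : ℚ} (h : ρ ≤ ρ') {c : Fin n → Fin 3 → ℚ} (hc : Far ρ' c) : Far ρ c :=
  fun i i' hi => (hc i i' hi).imp fun _ hj => h.trans hj

theorem Resh.refl (l : Fin n → Fin 3 → ℚ) (hl : Pos l) : Resh l l :=
  ⟨0, fun c _ => R.refl c l hl⟩

theorem Resh.trans {l l' l'' : Fin n → Fin 3 → ℚ} (hl : Pos l) (hl' : Pos l')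
    (h : Resh l l') (h' : Resh l' l'') : Resh l l'' := by
  obtain ⟨ρ, h⟩ := h
  obtain ⟨ρ', h'⟩ := h'
  exact ⟨max ρ ρ', fun c hc => (h c (hc.mono (le_max_left _ _))).trans hl hl'
    (h' c (hc.mono (le_max_right _ _)))⟩

theorem Resh.planar (l : Fin n → Fin 3 → ℚ) (hl : Pos l) (i0 : Fin n) (p q : Fin 3) (hpq : p ≠ q)
    (d : ℚ) (hd : 0 < d) :
    Resh l (Function.update l i0 (fun j => if j = p then d * l i0 j else if j = q then l i0 j / d
      else l i0 j)) := by
  let S : ℚ := ∑ j, l i0 j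
  have hS : ∀ j, l i0 j ≤ S := fun j =>
    Finset.single_le_sum (f := fun j => l i0 j) (fun j _ => (hl i0 j).le) (Finset.mem_univ j)
  have hS0 : 0 < S := lt_of_lt_of_le (hl i0 0) (hS 0)
  let σ : ℚ := (d + 1) * S + S / d + S
  let M : ℚ := ∑ i, ∑ j, l i j
  have hM : ∀ i j, l i j ≤ M := fun i j => by
    calc l i j ≤ ∑ j, l i j :=
          Finset.single_le_sum (f := fun j => l i j) (fun j _ => (hl i j).le) (Finset.mem_univ j)
      _ ≤ _ := Finset.single_le_sum (f := fun i => ∑ j, l i j)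
            (fun i _ => Finset.sum_nonneg fun j _ => (hl i j).le) (Finset.mem_univ i)
  refine ⟨σ + 1 + M, fun c hc => ?_⟩
  have hσ : 0 ≤ σ := by positivity
  let e : (i k : Fin 3) → (h : i ≠ k) → (β : ℚ) → Elem := fun i k h β =>
    ⟨i, k, h, c i0, fun _ => σ, fun _ => hσ, 1, one_pos, -β * c i0 i, β⟩
  refine ⟨[e q p hpq.symm (-1 / d), e p q hpq (d - 1), e q p hpq.symm 1, e p q hpq (-(d - 1) / d)],
    fun i x hx => ?_⟩
  by_cases hi : i = i0
  · subst hi
    rw [Function.update_self]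
    -- relative coordinates
    have hd' : (0:ℝ) < d := by exact_mod_cast hd
    let x1 : E3 := x + ((((e q p hpq.symm (-1 / d)).α : ℚ) : ℝ) + ((e q p hpq.symm (-1 / d)).β : ℚ) * x q) • Pi.single p 1
    let x2 : E3 := x1 + ((((e p q hpq (d - 1)).α : ℚ) : ℝ) + ((e p q hpq (d - 1)).β : ℚ) * x1 p) • Pi.single q 1
    let x3 : E3 := x2 + ((((e q p hpq.symm 1).α : ℚ) : ℝ) + ((e q p hpq.symm 1).β : ℚ) * x2 q) • Pi.single p 1
    let x4 : E3 := x3 + ((((e p q hpq (-(d - 1) / d)).α : ℚ) : ℝ) + ((e p q hpq (-(d - 1) / d)).β : ℚ) * x3 p) • Pi.single q 1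
    have p1p : x1 p - c i p = (x p - c i p) - (x q - c i q) / d := by
      simp only [x1, e, Pi.add_apply, Pi.smul_apply, Pi.single_eq_same, smul_eq_mul]
      push_cast; field_simp; ring
    have p1o : ∀ j, j ≠ p → x1 j = x j := by
      intro j hj
      simp only [x1, Pi.add_apply, Pi.smul_apply, Pi.single_eq_of_ne hj, smul_eq_mul, mul_zero, add_zero]
    have p2q : x2 q - c i q = (d - 1) * (x p - c i p) + (x q - c i q) / d := by
      have : x2 q - c i q = (x1 q - c i q) + (d - 1) * (x1 p - c i p) := by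
        simp only [x2, e, Pi.add_apply, Pi.smul_apply, Pi.single_eq_same, smul_eq_mul]
        push_cast; ring
      rw [this, p1p, p1o q hpq.symm]
      field_simp; ring
    have p2o : ∀ j, j ≠ q → x2 j = x1 j := by
      intro j hj
      simp only [x2, Pi.add_apply, Pi.smul_apply, Pi.single_eq_of_ne hj, smul_eq_mul, mul_zero, add_zero]
    have p3p : x3 p - c i p = d * (x p - c i p) := by
      have : x3 p - c i p = (x2 p - c i p) + (x2 q - c i q) := by
        simp only [x3, e, Pi.add_apply, Pi.smul_apply, Pi.single_eq_same, smul_eq_mul]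
        push_cast; ring
      rw [this, p2q, p2o p hpq, p1p]
      ring
    have p3o : ∀ j, j ≠ p → x3 j = x2 j := by
      intro j hj
      simp only [x3, Pi.add_apply, Pi.smul_apply, Pi.single_eq_of_ne hj, smul_eq_mul, mul_zero, add_zero]
    have p4q : x4 q - c i q = (x q - c i q) / d := by
      have : x4 q - c i q = (x3 q - c i q) - (d - 1) / d * (x3 p - c i p) := by
        simp only [x4, e, Pi.add_apply, Pi.smul_apply, Pi.single_eq_same, smul_eq_mul]
        push_cast; ring
      rw [this, p3p, p3o q hpq.symm, p2q]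
      field_simp; ring
    have p4o : ∀ j, j ≠ q → x4 j = x3 j := by
      intro j hj
      simp only [x4, Pi.add_apply, Pi.smul_apply, Pi.single_eq_of_ne hj, smul_eq_mul, mul_zero, add_zero]
    -- bounds
    have hSr : ∀ j, |x j - c i j| ≤ (S:ℝ) := fun j => (hx j).trans (by exact_mod_cast hS j)
    have hS0' : (0:ℝ) < S := by exact_mod_cast hS0
    have hσr : ((σ:ℚ):ℝ) = (d + 1) * S + S / d + S := by simp only [σ]; push_cast; ring
    have hdiv : ∀ j, |(x j - c i j) / d| ≤ S / d := fun j => by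
      rw [abs_div, abs_of_pos hd']
      exact div_le_div_of_nonneg_right (hSr j) hd'.le
    have b0 : ∀ j, |x j - c i j| ≤ σ := fun j => by
      rw [hσr]
      have : (0:ℝ) ≤ S / d := by positivity
      nlinarith [hSr j]
    have bd : ∀ j, |(x j - c i j) / d| ≤ σ := fun j => by
      rw [hσr]
      nlinarith [hdiv j]
    have bm : ∀ j, |d * (x j - c i j)| ≤ σ := fun j => by
      rw [hσr, abs_mul, abs_of_pos hd']
      have : (0:ℝ) ≤ S / d := by positivity
      nlinarith [hSr j, mul_le_mul_of_nonneg_left (hSr j) hd'.le]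
    have b1p : |x1 p - c i p| ≤ σ := by
      rw [p1p, hσr]
      refine (abs_sub _ _).trans ?_
      nlinarith [hSr p, hdiv q]
    have b2q : |x2 q - c i q| ≤ σ := by
      rw [p2q, hσr]
      refine (abs_add_le _ _).trans ?_
      rw [abs_mul]
      have h1 : |(d:ℝ) - 1| ≤ d + 1 := by
        rw [abs_le]; constructor <;> linarith
      have h2 : |(d:ℝ) - 1| * |x p - c i p| ≤ (d + 1) * S :=
        mul_le_mul h1 (hSr p) (abs_nonneg _) (by positivity)
      nlinarith [hdiv q]
    have m0 : x ∈ box (c i) (fun _ => σ) := fun j => b0 j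
    have m1 : x1 ∈ box (c i) (fun _ => σ) := fun j => by
      by_cases hj : j = p
      · subst hj; exact b1p
      · rw [p1o j hj]; exact b0 j
    have m2 : x2 ∈ box (c i) (fun _ => σ) := fun j => by
      by_cases hj : j = q
      · subst hj; exact b2q
      · rw [p2o j hj]; exact m1 j
    have m3 : x3 ∈ box (c i) (fun _ => σ) := fun j => by
      by_cases hj : j = p
      · subst hj; rw [p3p]; exact bm j
      · rw [p3o j hj]; exact m2 j
    have m4 : x4 ∈ box (c i) (fun _ => σ) := fun j => by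
      by_cases hj : j = q
      · subst hj; rw [p4q]; exact bd j
      · rw [p4o j hj]; exact m3 j
    refine ⟨x1, Or.inl ⟨m0, m1, rfl⟩, x2, Or.inl ⟨m1, m2, rfl⟩, x3, Or.inl ⟨m2, m3, rfl⟩, x4,
      Or.inl ⟨m3, m4, rfl⟩, ?_⟩
    change stdm _ _ _ _ x = x4
    funext j
    have hlj : (l i j : ℝ) ≠ 0 := by exact_mod_cast (hl i j).ne'
    unfold stdm
    dsimp only
    by_cases hj : j = p
    · subst hj
      rw [if_pos rfl]
      push_cast
      rw [mul_div_assoc, div_self hlj, mul_one, ← p3p, ← p4o j hpq]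
      ring
    · rw [if_neg hj]
      by_cases hj' : j = q
      · subst hj'
        rw [if_pos rfl]
        push_cast
        have : (l i j : ℝ) / d / l i j * (x j - c i j) = x4 j - c i j := by
          rw [p4q]; field_simp
        rw [this]; ring
      · rw [if_neg hj', p4o j hj', p3o j hj, p2o j hj', p1o j hj]
        push_cast
        rw [div_self hlj]; ring
  · rw [Function.update_of_ne hi, stdm_self (hl i)]
    obtain ⟨j, hj⟩ := hc i0 i (Ne.symm hi)
    have hout : (σ:ℝ) + ((1:ℚ):ℝ) ≤ |x j - c i0 j| := by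
      have h1 := hx j
      have h2 : ((σ + 1 + M : ℚ) : ℝ) ≤ ((|c i0 j - c i j| : ℚ) : ℝ) := by exact_mod_cast hj
      have h5 : (l i j : ℝ) ≤ M := by exact_mod_cast hM i j
      push_cast at h2 ⊢
      have h3 := abs_sub_abs_le_abs_sub ((c i0 j : ℝ) - c i j) (x j - c i j)
      have h4 : |(c i0 j : ℝ) - c i j - (x j - c i j)| = |x j - c i0 j| := by
        rw [← abs_neg]; congr 1; ring
      rw [h4] at h3
      linarith
    exact ⟨x, Or.inr ⟨⟨j, hout⟩, rfl⟩, x, Or.inr ⟨⟨j, hout⟩, rfl⟩, x, Or.inr ⟨⟨j, hout⟩, rfl⟩, x,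
      Or.inr ⟨⟨j, hout⟩, rfl⟩, rfl⟩

theorem Resh.one (l : Fin n → Fin 3 → ℚ) (hl : Pos l) (i0 : Fin n) (m : Fin 3 → ℚ)
    (hm : ∀ j, 0 < m j) (hvol : ∏ j, m j = ∏ j, l i0 j) :
    Resh l (Function.update l i0 m) := by
  have h0 := hl i0 0
  have h1 := hl i0 1
  have h2 := hl i0 2
  have m0 := hm 0
  have m1 := hm 1
  have m2 := hm 2
  rw [Fin.prod_univ_three, Fin.prod_univ_three] at hvol
  let d : ℚ := m 0 / l i0 0
  have hd : 0 < d := div_pos m0 h0
  let l1 : Fin n → Fin 3 → ℚ := Function.update l i0 (fun j => if j = 0 then d * l i0 j else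
    if j = 1 then l i0 j / d else l i0 j)
  have hl1 : Pos l1 := by
    intro i j
    by_cases hi : i = i0
    · subst hi
      simp only [l1, Function.update_self]
      split_ifs
      · exact mul_pos hd (hl i j)
      · exact div_pos (hl i j) hd
      · exact hl i j
    · simp only [l1, Function.update_of_ne hi]; exact hl i j
  have r1 : Resh l l1 := Resh.planar l hl i0 0 1 (by decide) d hd
  let d' : ℚ := m 1 * d / l i0 1
  have hd' : 0 < d' := div_pos (mul_pos m1 hd) h1
  have r2 := Resh.planar l1 hl1 i0 1 2 (by decide) d' hd'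
  have e : Function.update l1 i0 (fun j => if j = 1 then d' * l1 i0 j else
      if j = 2 then l1 i0 j / d' else l1 i0 j) = Function.update l i0 m := by
    funext i
    by_cases hi : i = i0
    · subst hi
      rw [Function.update_self, Function.update_self]
      funext j
      have hj : j = 0 ∨ j = 1 ∨ j = 2 := by fin_cases j <;> simp
      rcases hj with rfl | rfl | rfl
      · simp [l1, d]; field_simp
      · simp [l1, d', d]; field_simp
      · simp [l1, d', d]; field_simp; linarith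
    · rw [Function.update_of_ne hi, Function.update_of_ne hi]
      simp only [l1, Function.update_of_ne hi]
  rw [e] at r2
  exact r1.trans hl hl1 r2

theorem Resh.all (l l' : Fin n → Fin 3 → ℚ) (hl : Pos l) (hl' : Pos l')
    (hvol : ∀ i, ∏ j, l' i j = ∏ j, l i j) : Resh l l' := by
  classical
  let ls : Finset (Fin n) → Fin n → Fin 3 → ℚ := fun s i => if i ∈ s then l' i else l i
  have hls : ∀ s, Pos (ls s) := by
    intro s i j
    simp only [ls]
    split_ifs
    · exact hl' i j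
    · exact hl i j
  have key : ∀ s, Resh l (ls s) := by
    intro s
    induction s using Finset.induction_on with
    | empty =>
      have : ls ∅ = l := by funext i; simp [ls]
      rw [this]; exact Resh.refl l hl
    | insert i0 s hp ih =>
      refine ih.trans hl (hls s) ?_
      have e1 : ls (insert i0 s) = Function.update (ls s) i0 (l' i0) := by
        funext i
        by_cases hi : i = i0
        · subst hi
          rw [Function.update_self]; simp [ls]
        · rw [Function.update_of_ne hi]; simp [ls, hi]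
      rw [e1]
      apply Resh.one _ (hls s) _ _ (hl' i0)
      rw [hvol]
      simp [ls, hp]
  have := key Finset.univ
  have e : ls Finset.univ = l' := by funext i; simp [ls]
  rwa [e] at this

/-! ### dilation and generic lattice positions -/

theorem sep_pair (D W : Fin 3 → ℚ) (p q : Fin 3) (h : D p * W q - D q * W p ≠ 0) :
    ∃ γ > 0, ∀ s : ℚ, 0 ≤ s → s ≤ 1 → ∃ j, γ ≤ |(1 - s) * D j + s * W j| := by
  let M : ℚ := |D p| + |D q| + |W p| + |W q| + 1
  have hM : 0 < M := by positivity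
  let Δ : ℚ := |D p * W q - D q * W p|
  have hΔ : 0 < Δ := abs_pos.2 h
  refine ⟨Δ / (4 * M), by positivity, fun s h0 h1 => ?_⟩
  by_contra hcon
  push Not at hcon
  have hp := hcon p
  have hq := hcon q
  obtain ⟨vp, hvp⟩ : ∃ v, v = (1 - s) * D p + s * W p := ⟨_, rfl⟩
  obtain ⟨vq, hvq⟩ : ∃ v, v = (1 - s) * D q + s * W q := ⟨_, rfl⟩
  rw [← hvp] at hp
  rw [← hvq] at hq
  have e1 : vp * W q - vq * W p = (1 - s) * (D p * W q - D q * W p) := by
    rw [hvp, hvq]; ring
  have e2 : D p * vq - D q * vp = s * (D p * W q - D q * W p) := by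
    rw [hvp, hvq]; ring
  have b1 : (1 - s) * Δ ≤ (Δ / (4 * M)) * |W q| + (Δ / (4 * M)) * |W p| := by
    have : |(1 - s) * (D p * W q - D q * W p)| = (1 - s) * Δ := by
      rw [abs_mul, abs_of_nonneg (by linarith)]
    rw [← this, ← e1]
    refine (abs_sub _ _).trans ?_
    rw [abs_mul, abs_mul]
    exact add_le_add (mul_le_mul_of_nonneg_right hp.le (abs_nonneg _))
      (mul_le_mul_of_nonneg_right hq.le (abs_nonneg _))
  have b2 : s * Δ ≤ |D p| * (Δ / (4 * M)) + |D q| * (Δ / (4 * M)) := by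
    have : |s * (D p * W q - D q * W p)| = s * Δ := by
      rw [abs_mul, abs_of_nonneg h0]
    rw [← this, ← e2]
    refine (abs_sub _ _).trans ?_
    rw [abs_mul, abs_mul]
    exact add_le_add (mul_le_mul_of_nonneg_left hq.le (abs_nonneg _))
      (mul_le_mul_of_nonneg_left hp.le (abs_nonneg _))
  have b3 : Δ ≤ (Δ / (4 * M)) * M := by
    have : (Δ / (4 * M)) * (|D p| + |D q| + |W p| + |W q|) ≤ (Δ / (4 * M)) * M := by
      apply mul_le_mul_of_nonneg_left _ (by positivity)
      simp only [M]; linarith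
    nlinarith
  have b4 : (Δ / (4 * M)) * M = Δ / 4 := by field_simp
  rw [b4] at b3
  linarith

/-- target lattice positions -/
def lat (N : ℚ) (i : Fin n) (j : Fin 3) : ℚ := (i : ℕ) * (if j = 0 then 1 else if j = 1 then N else N ^ 2)

theorem lat0 (N : ℚ) (i : Fin n) : lat N i 0 = (i : ℕ) := by simp [lat]
theorem lat1 (N : ℚ) (i : Fin n) : lat N i 1 = (i : ℕ) * N := by simp [lat]
theorem lat2 (N : ℚ) (i : Fin n) : lat N i 2 = (i : ℕ) * N ^ 2 := by simp [lat]

def Sep (c l : Fin n → Fin 3 → ℚ) : Prop := ∀ i i', i ≠ i' → ∃ j, l i j + l i' j < |c i j - c i' j|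

def Generic (N : ℚ) (a : Fin n → Fin 3 → ℚ) : Prop :=
  ∀ i i', i ≠ i' → ∃ p q, (a i p - a i' p) * (lat N i q - lat N i' q) -
    (a i q - a i' q) * (lat N i p - lat N i' p) ≠ 0

theorem exists_generic (a : Fin n → Fin 3 → ℚ) (ha : ∀ i i', i ≠ i' → a i ≠ a i') :
    ∃ s : Finset ℚ, ∀ N ∉ s, Generic N a := by
  classical
  refine ⟨Finset.univ.image fun p : Fin n × Fin n => (a p.1 1 - a p.2 1) / (a p.1 0 - a p.2 0),
    fun N hN i i' hi => ?_⟩
  have hN' : N ≠ (a i 1 - a i' 1) / (a i 0 - a i' 0) := by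
    intro h
    exact hN (Finset.mem_image.2 ⟨(i, i'), Finset.mem_univ _, h.symm⟩)
  have hne : ((i : ℕ) : ℚ) - ((i' : ℕ) : ℚ) ≠ 0 := by
    rw [sub_ne_zero]
    intro h
    exact hi (Fin.ext (by exact_mod_cast h))
  by_contra hcon
  push Not at hcon
  have h01 := hcon 0 1
  have h02 := hcon 0 2
  simp only [lat0, lat1, lat2] at h01 h02
  have k01 : (((i : ℕ) : ℚ) - (i' : ℕ)) * ((a i 0 - a i' 0) * N - (a i 1 - a i' 1)) = 0 := by
    linear_combination h01
  have k02 : (((i : ℕ) : ℚ) - (i' : ℕ)) * ((a i 0 - a i' 0) * N ^ 2 - (a i 2 - a i' 2)) = 0 := by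
    linear_combination h02
  have k1 := (mul_eq_zero.1 k01).resolve_left hne
  have k2 := (mul_eq_zero.1 k02).resolve_left hne
  by_cases h0 : a i 0 - a i' 0 = 0
  · rw [h0] at k1 k2
    apply ha i i' hi
    funext j
    have hj : j = 0 ∨ j = 1 ∨ j = 2 := by fin_cases j <;> simp
    rcases hj with rfl | rfl | rfl <;> linarith
  · apply hN'
    field_simp
    linarith

theorem R.to_lattice (a l : Fin n → Fin 3 → ℚ) (hl : Pos l) (hs : Sep a l) (N : ℚ)
    (hg : Generic N a) : ∃ Λ : ℚ, ∀ lam, Λ ≤ lam → R a l (fun i j => lam * lat N i j) l ∧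
      R (fun i j => lam * lat N i j) l a l := by
  -- uniform separation constants
  obtain ⟨γ1, hγ1, h1⟩ := exists_uniform (fun (p : Fin n × Fin n) δ => p.1 ≠ p.2 →
      ∃ j, l p.1 j + l p.2 j + δ ≤ |a p.1 j - a p.2 j|) (fun p => by
    by_cases hi : p.1 = p.2
    · exact ⟨1, one_pos, fun _ _ _ h => absurd hi h⟩
    · obtain ⟨j, hj⟩ := hs p.1 p.2 hi
      exact ⟨|a p.1 j - a p.2 j| - (l p.1 j + l p.2 j), by linarith,
        fun δ' _ h2 _ => ⟨j, by linarith⟩⟩)
  obtain ⟨γ2, hγ2, h2⟩ := exists_uniform (fun (p : Fin n × Fin n) δ => p.1 ≠ p.2 →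
      ∀ s : ℚ, 0 ≤ s → s ≤ 1 → ∃ j, δ ≤ |(1 - s) * (a p.1 j - a p.2 j) +
        s * (lat N p.1 j - lat N p.2 j)|) (fun p => by
    by_cases hi : p.1 = p.2
    · exact ⟨1, one_pos, fun _ _ _ h => absurd hi h⟩
    · obtain ⟨p', q', hpq⟩ := hg p.1 p.2 hi
      obtain ⟨γ, hγ, h⟩ := sep_pair (fun j => a p.1 j - a p.2 j)
        (fun j => lat N p.1 j - lat N p.2 j) p' q' hpq
      exact ⟨γ, hγ, fun δ' _ h2 _ s h0 h1 => by
        obtain ⟨j, hj⟩ := h s h0 h1
        exact ⟨j, h2.trans hj⟩⟩)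
  let M : ℚ := ∑ i, ∑ j, l i j
  have hM : ∀ i j, l i j ≤ M := fun i j => by
    calc l i j ≤ ∑ j, l i j :=
          Finset.single_le_sum (f := fun j => l i j) (fun j _ => (hl i j).le) (Finset.mem_univ j)
      _ ≤ _ := Finset.single_le_sum (f := fun i => ∑ j, l i j)
            (fun i _ => Finset.sum_nonneg fun j _ => (hl i j).le) (Finset.mem_univ i)
  have hM0 : 0 ≤ M := Finset.sum_nonneg fun i _ => Finset.sum_nonneg fun j _ => (hl i j).le
  refine ⟨max 1 ((2 * M + 1) / γ2), fun lam hlam => ?_⟩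
  have hlam1 : 1 ≤ lam := (le_max_left _ _).trans hlam
  have hlam2 : 2 * M + 1 ≤ lam * γ2 := by
    have := (le_max_right _ _).trans hlam
    rwa [div_le_iff₀ hγ2] at this
  let b : Fin n → Fin 3 → ℚ := fun i j => lam * a i j
  -- the dilation paths
  have hdil : ∀ μ : ℚ, 1 ≤ μ → ∀ i i', i ≠ i' → ∃ j,
      l i j + l i' j + γ1 ≤ |μ * (a i j - a i' j)| := by
    intro μ hμ i i' hi
    obtain ⟨j, hj⟩ := h1 (i, i') hi
    refine ⟨j, ?_⟩
    rw [abs_mul, abs_of_nonneg (by linarith)]
    dsimp only at hj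
    nlinarith [abs_nonneg (a i j - a i' j)]
  have r1 : R a l b l := by
    apply R.linear a b l hl γ1 hγ1
    intro s h0 h1' i i' hi
    obtain ⟨j, hj⟩ := hdil (1 - s + s * lam) (by nlinarith) i i' hi
    refine ⟨j, hj.trans (le_of_eq ?_)⟩
    congr 1
    simp only [b]; ring
  have r1' : R b l a l := by
    apply R.linear b a l hl γ1 hγ1
    intro s h0 h1' i i' hi
    obtain ⟨j, hj⟩ := hdil ((1 - s) * lam + s) (by nlinarith) i i' hi
    refine ⟨j, hj.trans (le_of_eq ?_)⟩
    congr 1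
    simp only [b]; ring
  have hsep : ∀ s : ℚ, 0 ≤ s → s ≤ 1 → ∀ i i', i ≠ i' → ∃ j, l i j + l i' j + 1 ≤
      |lam * ((1 - s) * (a i j - a i' j) + s * (lat N i j - lat N i' j))| := by
    intro s h0 h1' i i' hi
    obtain ⟨j, hj⟩ := h2 (i, i') hi s h0 h1'
    refine ⟨j, ?_⟩
    rw [abs_mul, abs_of_nonneg (by linarith)]
    have := mul_le_mul_of_nonneg_left hj (by linarith : (0:ℚ) ≤ lam)
    linarith [hM i j, hM i' j]
  have r2 : R b l (fun i j => lam * lat N i j) l := by
    apply R.linear _ _ l hl 1 one_pos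
    intro s h0 h1' i i' hi
    obtain ⟨j, hj⟩ := hsep s h0 h1' i i' hi
    refine ⟨j, hj.trans (le_of_eq ?_)⟩
    congr 1
    simp only [b]; ring
  have r2' : R (fun i j => lam * lat N i j) l b l := by
    apply R.linear _ _ l hl 1 one_pos
    intro s h0 h1' i i' hi
    obtain ⟨j, hj⟩ := hsep (1 - s) (by linarith) (by linarith) i i' hi
    refine ⟨j, hj.trans (le_of_eq ?_)⟩
    congr 1
    simp only [b]; ring
  exact ⟨r1.trans hl hl r2, r2'.trans hl hl r1'⟩

theorem plan (a b h k : Fin n → Fin 3 → ℚ) (hh : Pos h) (hk : Pos k) (ha : Sep a h) (hb : Sep b k)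
    (hvol : ∀ i, ∏ j, k i j = ∏ j, h i j) : R a h b k := by
  have hne : ∀ (c l : Fin n → Fin 3 → ℚ), Pos l → Sep c l → ∀ i i', i ≠ i' → c i ≠ c i' := by
    intro c l hl hs i i' hi hc
    obtain ⟨j, hj⟩ := hs i i' hi
    rw [hc, sub_self, abs_zero] at hj
    linarith [hl i j, hl i' j]
  obtain ⟨s1, hs1⟩ := exists_generic a (hne a h hh ha)
  obtain ⟨s2, hs2⟩ := exists_generic b (hne b k hk hb)
  obtain ⟨N, hN⟩ := Infinite.exists_notMem_finset (s1 ∪ s2)
  rw [Finset.mem_union, not_or] at hN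
  obtain ⟨Λ1, hΛ1⟩ := R.to_lattice a h hh ha N (hs1 N hN.1)
  obtain ⟨Λ2, hΛ2⟩ := R.to_lattice b k hk hb N (hs2 N hN.2)
  obtain ⟨ρ, hρ⟩ := Resh.all h k hh hk hvol
  let lam : ℚ := max (max Λ1 Λ2) (max ρ 0)
  have l1 : Λ1 ≤ lam := (le_max_left _ _).trans (le_max_left _ _)
  have l2 : Λ2 ≤ lam := (le_max_right _ _).trans (le_max_left _ _)
  have l3 : ρ ≤ lam := (le_max_left _ _).trans (le_max_right _ _)
  have l4 : 0 ≤ lam := (le_max_right _ _).trans (le_max_right _ _)
  have hfar : Far ρ (fun (i : Fin n) j => lam * lat N i j) := by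
    intro i i' hi
    refine ⟨0, ?_⟩
    have e : lam * lat N i 0 - lam * lat N i' 0 = lam * (((i:ℕ):ℚ) - ((i':ℕ):ℚ)) := by
      simp [lat]; ring
    rw [e, abs_mul, abs_of_nonneg l4]
    have h1 : (1:ℚ) ≤ |((i:ℕ):ℚ) - ((i':ℕ):ℚ)| := by
      have h2 : (((i:ℕ):ℤ) - ((i':ℕ):ℤ)) ≠ 0 := by
        intro h; apply hi; apply Fin.ext; omega
      have h3 := Int.one_le_abs h2
      exact_mod_cast h3
    nlinarith
  exact (((hΛ1 lam l1).1).trans hh hh (hρ _ hfar)).trans hh hk (hΛ2 lam l2).2

theorem sep_of_disjoint (a h : Fin n → Fin 3 → ℚ) (hh : Pos h)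
    (ha : Pairwise fun i i' => Disjoint (box (a i) (h i)) (box (a i') (h i'))) : Sep a h := by
  intro i i' hi
  by_contra hcon
  push Not at hcon
  have hd : Disjoint (box (a i) (h i)) (box (a i') (h i')) := ha hi
  rw [Set.disjoint_left] at hd
  have hpos : ∀ j, (0:ℝ) < h i j := fun j => by exact_mod_cast hh i j
  have hpos' : ∀ j, (0:ℝ) < h i' j := fun j => by exact_mod_cast hh i' j
  have hc : ∀ j, |(a i j : ℝ) - a i' j| ≤ h i j + h i' j := fun j => by exact_mod_cast hcon j
  have key : ∀ j, ∀ u v : ℝ, 0 < u → 0 < v → |(a i j : ℝ) - a i' j| ≤ u + v →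
      |(v * a i j + u * a i' j) / (u + v) - a i j| ≤ u := by
    intro j u v hu hv hle
    have e : (v * a i j + u * a i' j) / (u + v) - a i j = -((a i j : ℝ) - a i' j) * (u / (u + v)) := by
      field_simp; ring
    rw [e, abs_mul, abs_neg, abs_of_pos (div_pos hu (by linarith))]
    calc |(a i j : ℝ) - a i' j| * (u / (u + v)) ≤ (u + v) * (u / (u + v)) :=
          mul_le_mul_of_nonneg_right hle (by positivity)
      _ = u := by field_simp
  refine hd (a := fun j => (h i' j * a i j + h i j * a i' j) / (h i j + h i' j)) ?_ ?_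
  · intro j
    exact key j _ _ (hpos j) (hpos' j) (hc j)
  · intro j
    have e : ((h i' j : ℝ) * a i j + h i j * a i' j) / (h i j + h i' j) - a i' j =
        ((a i j : ℝ) - a i' j) * (h i' j / (h i j + h i' j)) := by
      have := hpos j
      have := hpos' j
      field_simp; ring
    dsimp only
    rw [e, abs_mul, abs_of_pos (div_pos (hpos' j) (by linarith [hpos j, hpos' j]))]
    have h1 := hpos j
    have h2 := hpos' j
    calc |(a i j : ℝ) - a i' j| * (h i' j / (h i j + h i' j)) ≤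
          (h i j + h i' j) * (h i' j / (h i j + h i' j)) :=
          mul_le_mul_of_nonneg_right (hc j) (by positivity)
      _ = h i' j := by field_simp

theorem Sep.enlarge (a h : Fin n → Fin 3 → ℚ) (hh : Pos h) (hs : Sep a h) :
    ∃ ε > 0, ∀ ε' > 0, ε' ≤ ε → Sep a (fun i j => (1 + ε') * h i j) := by
  obtain ⟨ε, hε, hE⟩ := exists_uniform (fun (p : Fin n × Fin n) δ => p.1 ≠ p.2 →
      ∃ j, (1 + δ) * h p.1 j + (1 + δ) * h p.2 j < |a p.1 j - a p.2 j|) (fun p => by
    by_cases hi : p.1 = p.2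
    · exact ⟨1, one_pos, fun _ _ _ h => absurd hi h⟩
    · obtain ⟨j, hj⟩ := hs p.1 p.2 hi
      have hpos : 0 < h p.1 j + h p.2 j := by linarith [hh p.1 j, hh p.2 j]
      refine ⟨(|a p.1 j - a p.2 j| - (h p.1 j + h p.2 j)) / (2 * (h p.1 j + h p.2 j)),
        div_pos (by linarith) (by linarith), fun δ' h0 h2 _ => ⟨j, ?_⟩⟩
      rw [le_div_iff₀ (by linarith)] at h2
      nlinarith)
  refine ⟨ε, hε, fun ε' h0 h1 i i' hi => ?_⟩
  obtain ⟨j, hj⟩ := hE (i, i') hi
  refine ⟨j, lt_of_le_of_lt ?_ hj⟩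
  dsimp only
  nlinarith [hh i j, hh i' j]

end Crest.Agent.BoxFlow
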